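import Vale.Agent.P022G.Conn.Fam
import Vale.Agent.P022G.Chain

/-!
# From `CD` to the chain words `Cn` and `Pd`
-/

namespace Vale.Agent.P022G.Conn

open Vale.Agent.P022G.Chain

variable {A : Type} [CommRing A] [IsNoetherianRing A]

theorem CD.cn {I : Ideal A} {d : ℕ} (h : CD I d) : Cn I d :=
  cn_of_fam I.minimalPrimes (fun _ hE => ⟨hE.1.1, hE.1.2, h.min_dim hE⟩)
    (fun E hE hle => by
      have := hE
      exact Ideal.exists_minimalPrimes_le hle)
    (fun E hE => h.induct (fun E' => Relation.ReflTransGen (fun F F' => F ∈ I.minimalPrimes ∧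
      F' ∈ I.minimalPrimes ∧ (d : WithBot ℕ∞) ≤ ringKrullDim (A ⧸ (F ⊔ F'))) E E')
      (fun _ h1 _ h2 _ _ l1 l2 hd hr =>
        hr.tail ⟨h1, h2, Vale.Agent.P022D.CA.dimGE_mono (sup_le l1 l2) hd⟩) hE
      Relation.ReflTransGen.refl)

/-- every prime over `I` contains a component of dimension at least `d + 1` -/
theorem CD.pd {I : Ideal A} {d : ℕ} (h : CD I d) {p : Ideal A} (hp : p.IsPrime) (hle : I ≤ p) :
    ∃ E, Pd I (d + 1) E ∧ E ≤ p := by
  obtain ⟨E, hE, h1⟩ := Ideal.exists_minimalPrimes_le hle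
  exact ⟨E, ⟨hE.1.1, hE.1.2, h.min_dim hE⟩, h1⟩

end Vale.Agent.P022G.Conn
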