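import Vale.Agent.P022G.Conn.CoreSyz

/-!
P022G, block CONN, part 2: the reflexive hull as an endomorphism ring and the core lemma.
-/

set_option linter.all false

noncomputable section

namespace Vale.Agent.P022G.Conn

open Function

section rk1

variable {B M : Type*} [CommRing B] [IsDomain B] [AddCommGroup M] [Module B M]

theorem frac (tf : ∀ (b : B) (l : M), b ≠ 0 → b • l = 0 → l = 0)
    (dep : ∀ l k : M, ∃ b c : B, (b ≠ 0 ∨ c ≠ 0) ∧ b • l = c • k) {l : M} (hl : l ≠ 0) (k : M) :
    ∃ b c : B, c ≠ 0 ∧ b • l = c • k := by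
  obtain ⟨b, c, h, hbc⟩ := dep l k
  refine ⟨b, c, fun hc => ?_, hbc⟩
  rw [hc, zero_smul] at hbc
  exact hl (tf b l (h.resolve_right (not_not.2 hc)) hbc)

theorem end_comm (tf : ∀ (b : B) (l : M), b ≠ 0 → b • l = 0 → l = 0)
    (dep : ∀ l k : M, ∃ b c : B, (b ≠ 0 ∨ c ≠ 0) ∧ b • l = c • k) (e e' : Module.End B M) :
    e * e' = e' * e := by
  ext l
  by_cases hl : l = 0
  · simp [hl]
  obtain ⟨b, c, hc, h⟩ := frac tf dep hl (e l)
  obtain ⟨b', c', hc', h'⟩ := frac tf dep hl (e' l)
  have h1 : (c * c') • e (e' l) = (b * b') • l := by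
    rw [mul_smul, ← map_smul e c', ← h', map_smul, smul_comm, ← h, smul_smul, mul_comm]
  have h2 : (c * c') • e' (e l) = (b * b') • l := by
    rw [mul_comm c, mul_smul, ← map_smul e' c, ← h, map_smul, smul_comm, ← h', smul_smul]
  rw [Module.End.mul_apply, Module.End.mul_apply, ← sub_eq_zero]
  exact tf _ _ (mul_ne_zero hc hc') (by rw [smul_sub, h1, h2, sub_self])

theorem end_nzd (tf : ∀ (b : B) (l : M), b ≠ 0 → b • l = 0 → l = 0)
    (dep : ∀ l k : M, ∃ b c : B, (b ≠ 0 ∨ c ≠ 0) ∧ b • l = c • k) (e e' : Module.End B M)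
    (h : e * e' = 0) : e = 0 ∨ e' = 0 := by
  by_cases h' : e' = 0
  · exact Or.inr h'
  left
  obtain ⟨l, hl⟩ : ∃ l, e' l ≠ 0 := by
    by_contra hc
    push Not at hc
    exact h' (LinearMap.ext hc)
  ext k
  obtain ⟨b, c, hc, hbc⟩ := frac tf dep hl k
  have h1 : e (e' l) = 0 := by rw [← Module.End.mul_apply, h, LinearMap.zero_apply]
  exact tf c _ hc (by rw [← map_smul, ← hbc, map_smul, h1, smul_zero])

end rk1

/-- the dual of `B` as a `B`-module -/
def Du (A B : Type*) [CommRing A] [CommRing B] [Algebra A B] := B →ₗ[A] A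

section du

variable {A B : Type*} [CommRing A] [CommRing B] [Algebra A B]

instance : AddCommGroup (Du A B) := inferInstanceAs (AddCommGroup (B →ₗ[A] A))
instance : Module A (Du A B) := inferInstanceAs (Module A (B →ₗ[A] A))

/-- underlying linear form -/
def Du.v : Du A B ≃ₗ[A] (B →ₗ[A] A) := LinearEquiv.refl A _

/-- the action of `B` -/
def Du.act : B →+* Module.End A (Du A B) where
  toFun b := (LinearMap.mul A B b).dualMap
  map_one' := LinearMap.ext fun l => LinearMap.ext fun z => congrArg (Du.v l) (one_mul z)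
  map_mul' b c := LinearMap.ext fun l => LinearMap.ext fun z =>
    congrArg (Du.v l) (by change b * c * z = c * (b * z); ring)
  map_zero' := LinearMap.ext fun l => LinearMap.ext fun z =>
    (congrArg (Du.v l) (zero_mul z)).trans (map_zero _)
  map_add' b c := LinearMap.ext fun l => LinearMap.ext fun z =>
    (congrArg (Du.v l) (add_mul b c z)).trans (map_add _ _ _)

instance : Module B (Du A B) := Module.compHom _ (Du.act (A := A) (B := B))

theorem Du.smul_apply (b : B) (l : Du A B) (z : B) : Du.v (b • l) z = Du.v l (b * z) := rfl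

theorem Du.ext {l k : Du A B} (h : ∀ z, Du.v l z = Du.v k z) : l = k :=
  Du.v.injective (LinearMap.ext h)

instance : IsScalarTower A B (Du A B) where
  smul_assoc a b l := Du.ext fun z => by
    rw [Du.smul_apply, map_smul, LinearMap.smul_apply, Du.smul_apply, smul_mul_assoc, map_smul]

variable [IsDomain A] [Module.Finite A B]

theorem Du.tf [IsDomain B] (b : B) (l : Du A B) (hb : b ≠ 0)
    (h : b • l = 0) : l = 0 := by
  have h1 := Ideal.comap_ne_bot_of_integral_mem (R := A) hb (Ideal.mem_span_singleton_self b)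
    (Algebra.IsIntegral.isIntegral b)
  obtain ⟨a, ha, ha0⟩ := Submodule.exists_mem_ne_zero_of_ne_bot h1
  obtain ⟨c, hc⟩ := Ideal.mem_span_singleton.1 (Ideal.mem_comap.1 ha)
  refine Du.ext fun z => ?_
  have h2 : Du.v (b • l) (c * z) = 0 := by rw [h, map_zero, LinearMap.zero_apply]
  rw [Du.smul_apply, ← mul_assoc, ← hc, ← Algebra.smul_def, map_smul, smul_eq_mul] at h2
  rw [(mul_eq_zero.1 h2).resolve_left ha0, map_zero, LinearMap.zero_apply]

theorem exists_max : ∃ (r : ℕ) (v : Fin r → B), LinearIndependent A v ∧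
    ∀ z : B, ∃ c : A, c ≠ 0 ∧ c • z ∈ Submodule.span A (Set.range v) := by
  obtain ⟨v, hv⟩ := exists_linearIndependent_of_le_finrank (R := A) (M := B) le_rfl
  refine ⟨_, v, hv, fun z => ?_⟩
  by_contra hc
  push Not at hc
  have h1 := LinearIndependent.finCons' z v hv (fun c y hy h => by
    by_contra h0
    refine hc c h0 ?_
    rw [eq_neg_of_add_eq_zero_left h]
    exact Submodule.neg_mem _ hy)
  have := h1.fintype_card_le_finrank
  simp at this

theorem Du.dep (hinj : Injective (algebraMap A B)) (l k : Du A B) :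
    ∃ b c : B, (b ≠ 0 ∨ c ≠ 0) ∧ b • l = c • k := by
  obtain ⟨r, v, hv, hz⟩ := exists_max (A := A) (B := B)
  by_contra hc
  push Not at hc
  let τ : (Fin r → A) →ₗ[A] B := Fintype.linearCombination A v
  have hτ : Injective τ := hv.fintypeLinearCombination_injective
  let Ψ : Du A B →ₗ[A] (Fin r → A) :=
    LinearMap.pi fun s => (LinearMap.applyₗ (v s)).comp (Du.v (A := A) (B := B)).toLinearMap
  have hΨ : ∀ w, Ψ w = 0 → w = 0 := fun w hw => Du.ext fun z => by
    obtain ⟨c, hc0, hcz⟩ := hz z
    have h1 : Submodule.span A (Set.range v) ≤ LinearMap.ker (Du.v w) := by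
      rw [Submodule.span_le]
      rintro _ ⟨s, rfl⟩
      exact congrFun hw s
    have h2 := h1 hcz
    rw [LinearMap.mem_ker, map_smul, smul_eq_mul] at h2
    rw [(mul_eq_zero.1 h2).resolve_left hc0, map_zero, LinearMap.zero_apply]
  let Φ : (Fin r → A) × (Fin r → A) →ₗ[A] Du A B :=
    LinearMap.coprod (((LinearMap.toSpanSingleton B _ l).restrictScalars A).comp τ)
      (((LinearMap.toSpanSingleton B _ (-k)).restrictScalars A).comp τ)
  have hinj2 : Injective (Ψ.comp Φ) := by
    rw [injective_iff_map_eq_zero]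
    rintro ⟨p, q⟩ h
    have h1 : τ p • l + τ q • (-k) = 0 := hΨ _ h
    have h2 : τ p • l = τ q • k := by rw [smul_neg, ← sub_eq_add_neg, sub_eq_zero] at h1; exact h1
    have h3 : ¬ (τ p ≠ 0 ∨ τ q ≠ 0) := fun h4 => hc _ _ h4 h2
    push Not at h3
    exact Prod.ext (hτ (by rw [h3.1]; exact (map_zero τ).symm))
      (hτ (by rw [h3.2]; exact (map_zero τ).symm))
  have h4 := LinearMap.finrank_le_finrank_of_injective hinj2
  simp only [Module.finrank_prod, Module.finrank_fin_fun] at h4
  have hr : r = 0 := by omega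
  subst hr
  obtain ⟨c, hc0, h1⟩ := hz 1
  rw [Set.range_eq_empty, Submodule.span_empty, Submodule.mem_bot, Algebra.smul_def, mul_one] at h1
  exact hc0 (hinj (by rw [h1, map_zero]))

theorem Du.exists_ne (hinj : Injective (algebraMap A B)) : ∃ l : Du A B, l ≠ 0 := by
  obtain ⟨r, v, hv, hz⟩ := exists_max (A := A) (B := B)
  have ht : Module.IsTorsion A (B ⧸ Submodule.span A (Set.range v)) := fun y => by
    obtain ⟨z, rfl⟩ := Submodule.mkQ_surjective _ y
    obtain ⟨c, hc0, hc⟩ := hz z
    refine ⟨⟨c, mem_nonZeroDivisors_of_ne_zero hc0⟩, ?_⟩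
    change c • Submodule.mkQ (Submodule.span A (Set.range v)) z = 0
    rw [← map_smul]
    exact (Submodule.Quotient.mk_eq_zero _).2 hc
  obtain ⟨d, hd, hd0⟩ := Submodule.annihilator_top_inter_nonZeroDivisors ht
  have hd1 : ∀ z : B, d • z ∈ Submodule.span A (Set.range v) := fun z => by
    have := Submodule.mem_annihilator.1 hd (Submodule.mkQ _ z) trivial
    rw [← map_smul] at this
    exact (Submodule.Quotient.mk_eq_zero _).1 this
  let θ : B →ₗ[A] Submodule.span A (Set.range v) :=
    LinearMap.codRestrict _ (d • LinearMap.id) hd1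
  by_contra hc
  push Not at hc
  have h1 : hv.repr (θ 1) = 0 := by
    ext s
    have := hc (Du.v.symm ((Finsupp.lapply s).comp (hv.repr.comp θ)))
    exact congrArg (fun l => Du.v l 1) this
  have h2 := hv.linearCombination_repr (θ 1)
  rw [h1, map_zero] at h2
  have h3 : d • (1 : B) = 0 := h2.symm
  rw [Algebra.smul_def, mul_one] at h3
  exact nonZeroDivisors.ne_zero hd0 (hinj (by rw [h3, map_zero]))

omit [IsDomain A] in
theorem Du.syz [IsNoetherianRing A] : ∃ (a b : ℕ)
    (ι : Module.End B (Du A B) →ₗ[A] (Fin a → A)) (φ : (Fin a → A) →ₗ[A] (Fin b → A)),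
    Injective ι ∧ LinearMap.range ι = LinearMap.ker φ := by
  have : Module.Finite A (Du A B) := inferInstanceAs (Module.Finite A (B →ₗ[A] A))
  obtain ⟨a, p, hp⟩ := Module.Finite.exists_fin' A (Du A B)
  obtain ⟨b, q, hq⟩ := Module.Finite.exists_fin' A (LinearMap.ker p)
  let ι : Module.End B (Du A B) →ₗ[A] (Fin a → A) :=
    { toFun := fun e s => Du.v (e (p (Pi.single s 1))) 1
      map_add' := fun e e' => funext fun s => by simp
      map_smul' := fun c e => funext fun s => by simp }
  let φ : (Fin a → A) →ₗ[A] (Fin b → A) :=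
    { toFun := fun w t => w ⬝ᵥ (q (Pi.single t 1) : Fin a → A)
      map_add' := fun w w' => funext fun t => by simp [add_dotProduct]
      map_smul' := fun c w => funext fun t => by simp [smul_dotProduct] }
  have key : ∀ (e : Module.End B (Du A B)) (u : Fin a → A), Du.v (e (p u)) 1 = ι e ⬝ᵥ u := by
    intro e u
    have h1 : ((LinearMap.applyₗ (1 : B)).comp (Du.v (A := A) (B := B)).toLinearMap).comp
        ((e.restrictScalars A).comp p) = dotProductBilin A A (ι e) := by
      refine LinearMap.pi_ext' fun s => LinearMap.ext_ring ?_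
      simp [ι]
    exact LinearMap.congr_fun h1 u
  refine ⟨a, b, ι, φ, ?_, le_antisymm ?_ ?_⟩
  · rw [injective_iff_map_eq_zero]
    intro e he
    refine LinearMap.ext fun l => Du.ext fun z => ?_
    obtain ⟨u, hu⟩ := hp (z • l)
    have := key e u
    rw [hu, he, zero_dotProduct, map_smul, Du.smul_apply, mul_one] at this
    rw [this, LinearMap.zero_apply, map_zero, LinearMap.zero_apply]
  · rintro _ ⟨e, rfl⟩
    refine funext fun t => ?_
    change ι e ⬝ᵥ _ = 0
    rw [← key, LinearMap.mem_ker.1 (q (Pi.single t 1)).2, map_zero, map_zero, LinearMap.zero_apply]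
  · intro w hw
    have h1 : LinearMap.ker p ≤ LinearMap.ker (dotProductBilin A A w) := fun u hu => by
      obtain ⟨g, hg⟩ := hq ⟨u, hu⟩
      have h2 : (dotProductBilin A A w).comp ((LinearMap.ker p).subtype.comp q) = 0 := by
        refine LinearMap.pi_ext' fun t => LinearMap.ext_ring ?_
        exact congrFun hw t
      have h3 := LinearMap.congr_fun h2 g
      rw [LinearMap.comp_apply, LinearMap.comp_apply, hg] at h3
      exact h3
    let μ : Du A B →ₗ[A] A := ((LinearMap.ker p).liftQ _ h1).comp
      (p.quotKerEquivOfSurjective hp).symm.toLinearMap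
    have hμ : ∀ u, μ (p u) = w ⬝ᵥ u := fun u => by
      have h2 : (p.quotKerEquivOfSurjective hp).symm (p u) = Submodule.Quotient.mk u := by
        rw [LinearEquiv.symm_apply_eq]; rfl
      change (LinearMap.ker p).liftQ _ h1 ((p.quotKerEquivOfSurjective hp).symm (p u)) = _
      rw [h2]; rfl
    let e : Module.End B (Du A B) :=
      { toFun := fun l => Du.v.symm (μ.comp ((LinearMap.toSpanSingleton B _ l).restrictScalars A))
        map_add' := fun l k => Du.ext fun z => by
          change μ (z • (l + k)) = μ (z • l) + μ (z • k)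
          rw [smul_add, map_add]
        map_smul' := fun c l => Du.ext fun z => by
          change μ (z • c • l) = μ ((c * z) • l)
          rw [smul_smul, mul_comm] }
    refine ⟨e, funext fun s => ?_⟩
    change μ ((1 : B) • p (Pi.single s 1)) = w s
    rw [one_smul, hμ, dotProduct_single, mul_one]

end du

/-- **Core of Grothendieck's connectedness theorem.** -/
theorem core {A B : Type*} [CommRing A] [IsDomain A] [IsNoetherianRing A] [CommRing B]
    [IsDomain B] [Algebra A B] [Module.Finite A B] (hinj : Injective (algebraMap A B))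
    (m : Ideal A) [IsAdicComplete m A] {f : A} (hfm : f ∈ m) (hf : f ≠ 0) (I J : Ideal B)
    (h : ∀ n, Hyp f I J n) :
    I ≤ (Ideal.span {algebraMap A B f}).radical ∨ J ≤ (Ideal.span {algebraMap A B f}).radical := by
  have tf := Du.tf (A := A) (B := B)
  have dep := Du.dep hinj
  obtain ⟨l, hl⟩ := Du.exists_ne hinj
  obtain ⟨a, b, ι, φ, hι, hex⟩ := Du.syz (A := A) (B := B)
  letI : CommRing (Module.End B (Du A B)) :=
    { (inferInstance : Ring (Module.End B (Du A B))) with mul_comm := end_comm tf dep }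
  have : Nontrivial (Du A B) := ⟨l, 0, hl⟩
  have : NoZeroDivisors (Module.End B (Du A B)) := ⟨fun {e e'} => end_nzd tf dep e e'⟩
  have : IsDomain (Module.End B (Du A B)) := NoZeroDivisors.to_isDomain _
  have : Module.Finite A (Module.End B (Du A B)) := Module.Finite.of_injective ι hι
  have : Module.Finite B (Module.End B (Du A B)) := Module.Finite.of_restrictScalars_finite A _ _
  have hψ : Injective (algebraMap B (Module.End B (Du A B))) := by
    rw [injective_iff_map_eq_zero]
    intro c hc
    by_contra h0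
    exact hl (tf c l h0 (LinearMap.congr_fun hc l))
  have ha : ∀ z : A, algebraMap A (Module.End B (Du A B)) z =
      algebraMap B (Module.End B (Du A B)) (algebraMap A B z) := fun z =>
    IsScalarTower.algebraMap_apply A B _ z
  have main := core_syz hι hex m hfm hf (I.map (algebraMap B (Module.End B (Du A B))))
    (J.map (algebraMap B (Module.End B (Du A B)))) (fun n => by
      obtain ⟨I1, J1, x, y, hI, hJ, hIJ, hx1, hy1, hx, hy⟩ := h n
      refine ⟨I1.map (algebraMap B _), J1.map (algebraMap B _), x, y,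
        (Ideal.map_mono hI).trans (Ideal.map_radical_le _),
        (Ideal.map_mono hJ).trans (Ideal.map_radical_le _), ?_, ?_, ?_, hx, hy⟩
      · rw [← Ideal.map_mul]
        refine (Ideal.map_mono hIJ).trans ?_
        rw [Ideal.map_span, Set.image_singleton, ha]
      · rw [← Ideal.map_sup, ha]; exact Ideal.mem_map_of_mem _ hx1
      · rw [← Ideal.map_sup, ha]; exact Ideal.mem_map_of_mem _ hy1)
  have down : ∀ K : Ideal B, K.map (algebraMap B (Module.End B (Du A B))) ≤
      (Ideal.span {algebraMap A (Module.End B (Du A B)) f}).radical →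
      K ≤ (Ideal.span {algebraMap A B f}).radical := fun K hK => by
    rw [Ideal.radical_eq_sInf, le_sInf_iff]
    rintro P ⟨hP, hPp⟩ z hz
    obtain ⟨Q, -, hQ, hQP⟩ := Ideal.exists_ideal_over_prime_of_isIntegral
      (S := Module.End B (Du A B)) P ⊥ (by
        rw [← RingHom.ker_eq_comap_bot, (RingHom.injective_iff_ker_eq_bot _).1 hψ]; exact bot_le)
    rw [← hQP, Ideal.mem_comap]
    refine hQ.radical_le_iff.2 ?_ (hK (Ideal.mem_map_of_mem _ hz))
    rw [Ideal.span_singleton_le_iff_mem, ha, ← Ideal.mem_comap, hQP]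
    exact hP (Ideal.mem_span_singleton_self _)
  exact main.imp (down I) (down J)

end Vale.Agent.P022G.Conn
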