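import Mathlib.RingTheory.Filtration
import Mathlib.RingTheory.Localization.Away.Basic
import Mathlib.RingTheory.Localization.Submodule
import Mathlib.RingTheory.AdicCompletion.Basic
import Mathlib.LinearAlgebra.FreeModule.PID
import Mathlib.LinearAlgebra.Dimension.Localization
import Mathlib.RingTheory.Finiteness.Nakayama
import Mathlib.RingTheory.Finiteness.Ideal
import Mathlib.RingTheory.Noetherian.Basic
import Mathlib.Tactic.LinearCombination
import Mathlib.LinearAlgebra.Basis.Basic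
import Mathlib.RingTheory.Finiteness.Cardinality

/-! Connectedness of a hypersurface section of a finite domain: the core argument. -/

set_option linter.all false

namespace Vale.Agent.P022G.Conn.H89

section reg
variable {A : Type*} [CommRing A] [IsDomain A] {f x y : A}

theorem reg1 (hf : f ≠ 0) (hx : ∀ a, f ∣ x * a → f ∣ a) (n : ℕ) :
    ∀ a, f ^ n ∣ x * a → f ^ n ∣ a := by
  induction n with
  | zero => intro a _; simp
  | succ n ih =>
    intro a h
    obtain ⟨a1, rfl⟩ := hx a ((dvd_pow_self f (Nat.succ_ne_zero n)).trans h)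
    have : f ^ n ∣ x * a1 := by
      rw [pow_succ', mul_left_comm] at h
      exact (mul_dvd_mul_iff_left hf).1 h
    rw [pow_succ']
    exact mul_dvd_mul_left f (ih a1 this)

theorem reg1k (hf : f ≠ 0) (hx : ∀ a, f ∣ x * a → f ∣ a) (n k : ℕ) :
    ∀ a, f ^ n ∣ x ^ k * a → f ^ n ∣ a := by
  induction k with
  | zero => intro a h; simpa using h
  | succ k ih =>
    intro a h
    rw [pow_succ', mul_assoc] at h
    exact ih a (reg1 hf hx n _ h)

theorem reg2 (hx : ∀ a, f ∣ x * a → f ∣ a)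
    (hy : ∀ a c d, y * a = f * c + x * d → ∃ c1 d1, a = f * c1 + x * d1) (k : ℕ) :
    ∀ a c d, y * a = f * c + x ^ k * d → ∃ c1 d1, a = f * c1 + x ^ k * d1 := by
  induction k with
  | zero => intro a c d _; exact ⟨0, a, by ring⟩
  | succ k ih =>
    intro a c d h
    obtain ⟨a1, a2, rfl⟩ := hy a c (x ^ k * d) (by rw [h]; ring)
    obtain ⟨e, he⟩ := hx (y * a2 - x ^ k * d) ⟨c - y * a1, by linear_combination h⟩
    obtain ⟨c1, d1, h1⟩ := ih a2 e d (by linear_combination he)
    exact ⟨a1 + x * c1, d1, by rw [h1]; ring⟩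

theorem reg3 (hf : f ≠ 0) (hx : ∀ a, f ∣ x * a → f ∣ a)
    (hy : ∀ a c d, y * a = f * c + x * d → ∃ c1 d1, a = f * c1 + x * d1) (n : ℕ) :
    ∀ a c d, y * a = f ^ n * c + x * d → ∃ c1 d1, a = f ^ n * c1 + x * d1 := by
  induction n with
  | zero => intro a c d _; exact ⟨a, 0, by ring⟩
  | succ n ih =>
    intro a c d h
    obtain ⟨a1, a2, rfl⟩ := hy a (f ^ n * c) d (by rw [h]; ring)
    obtain ⟨e, he⟩ := hx (d - y * a2) ⟨y * a1 - f ^ n * c, by linear_combination -h⟩
    have h2 : y * a1 = f ^ n * c + x * e := by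
      apply mul_left_cancel₀ hf
      linear_combination h + x * he
    obtain ⟨c1, d1, h1⟩ := ih a1 c e h2
    exact ⟨c1, a2 + f * d1, by rw [h1]; ring⟩

theorem reg4 (hf : f ≠ 0) (hx : ∀ a, f ∣ x * a → f ∣ a)
    (hy : ∀ a c d, y * a = f * c + x * d → ∃ c1 d1, a = f * c1 + x * d1) (n k l : ℕ) :
    ∀ a c d, y ^ l * a = f ^ n * c + x ^ k * d → ∃ c1 d1, a = f ^ n * c1 + x ^ k * d1 := by
  have hx' : ∀ a, f ∣ x ^ k * a → f ∣ a := by
    intro a h
    simpa using reg1k hf hx 1 k a (by simpa using h)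
  induction l with
  | zero => intro a c d h; exact ⟨c, d, by simpa using h⟩
  | succ l ih =>
    intro a c d h
    obtain ⟨c1, d1, h1⟩ := reg3 hf hx' (reg2 hx hy k) n (y ^ l * a) c d (by rw [← h]; ring)
    exact ih a c1 d1 h1

end reg

/-- coordinates of a finite module in a maximal free submodule -/
theorem coords {A B : Type*} [CommRing A] [IsDomain A] [AddCommGroup B] [Module A B]
    [Module.Finite A B] :
    ∃ (s : Type) (δ : A) (ψ : B →ₗ[A] (s →₀ A)) (σ : (s →₀ A) →ₗ[A] B), Finite s ∧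
      δ ≠ 0 ∧ ∀ b, σ (ψ b) = δ • b := by
  classical
  obtain ⟨n, v, hv⟩ := Module.Finite.exists_fin (R := A) (M := B)
  obtain ⟨s, hs, hm⟩ := exists_maximal_linearIndepOn A v
  have h1 : ∀ i, ∃ a : A, a ≠ 0 ∧ a • v i ∈ Submodule.span A (v '' s) := by
    intro i
    by_cases hi : i ∈ s
    · exact ⟨1, one_ne_zero, by rw [one_smul]; exact Submodule.subset_span ⟨i, hi, rfl⟩⟩
    · exact hm i hi
  choose a ha0 ha using h1
  have hr : Submodule.span A (v '' s) = Submodule.span A (Set.range fun i : s => v i) := by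
    congr 1
    ext b
    simp
  have h2 : ∀ b : B, (∏ i, a i) • b ∈ Submodule.span A (Set.range fun i : s => v i) := by
    intro b
    rw [← hr]
    have hb : b ∈ Submodule.span A (Set.range v) := by rw [hv]; trivial
    induction hb using Submodule.span_induction with
    | mem b hb =>
      obtain ⟨i, rfl⟩ := hb
      rw [← Finset.prod_erase_mul _ _ (Finset.mem_univ i), mul_smul]
      exact Submodule.smul_mem _ _ (ha i)
    | zero => simp
    | add b c _ _ hb hc => rw [smul_add]; exact Submodule.add_mem _ hb hc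
    | smul t b _ hb => rw [smul_comm]; exact Submodule.smul_mem _ _ hb
  have hl : LinearIndependent A (fun i : s => v i) := hs
  refine ⟨s, ∏ i, a i, hl.repr ∘ₗ
    LinearMap.codRestrict _ ((∏ i, a i) • LinearMap.id) (fun b => h2 b),
    Finsupp.linearCombination A (fun i : s => v i), inferInstance,
    Finset.prod_ne_zero_iff.2 fun i _ => ha0 i, fun b => ?_⟩
  simp only [LinearMap.comp_apply]
  rw [hl.linearCombination_repr]
  rfl

theorem rad_of {B : Type*} [CommRing B] [IsDomain B] [IsNoetherianRing B] {f u d : B}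
    (hd : d ≠ 0) (h : ∀ n, ∃ N, f ^ n ∣ d * u ^ N) : u ∈ (Ideal.span {f}).radical := by
  by_cases hu : u = 0
  · simp [hu]
  by_contra hn
  let L := Localization.Away u
  have hle : Submonoid.powers u ≤ nonZeroDivisors B :=
    powers_le_nonZeroDivisors_of_noZeroDivisors hu
  haveI : IsDomain L := IsLocalization.isDomain_of_le_nonZeroDivisors L hle
  haveI : IsNoetherianRing L := IsLocalization.isNoetherianRing (Submonoid.powers u) L inferInstance
  have hinj : Function.Injective (algebraMap B L) := IsLocalization.injective L hle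
  have hne : Ideal.span {algebraMap B L f} ≠ ⊤ := by
    intro ht
    apply hn
    have h1 : IsUnit (algebraMap B L f) := Ideal.span_singleton_eq_top.1 ht
    obtain ⟨z, hz⟩ := h1.exists_right_inv
    obtain ⟨⟨b, ⟨_, k, rfl⟩⟩, hb⟩ := IsLocalization.surj (Submonoid.powers u) z
    refine ⟨k, Ideal.mem_span_singleton.2 ⟨b, hinj ?_⟩⟩
    simp only at hb
    rw [map_mul, ← hb, ← mul_assoc, hz, one_mul]
  have h0 := Ideal.iInf_pow_eq_bot_of_isDomain _ hne
  have h2 : algebraMap B L d ∈ ⨅ n : ℕ, Ideal.span {algebraMap B L f} ^ n := by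
    refine Ideal.mem_iInf.2 fun n => ?_
    obtain ⟨N, c, hc⟩ := h n
    rw [Ideal.span_singleton_pow, Ideal.mem_span_singleton]
    have hun : IsUnit (algebraMap B L (u ^ N)) := by
      rw [map_pow]; exact (IsLocalization.Away.algebraMap_isUnit u).pow N
    refine hun.dvd_mul_right.1 ⟨algebraMap B L c, ?_⟩
    rw [← map_mul, hc, map_mul, map_pow]
  rw [h0, Ideal.mem_bot] at h2
  exact hd (hinj (by rw [h2, map_zero]))

section core
variable {A B : Type*} [CommRing A] [IsDomain A] [CommRing B] [IsDomain B] [Algebra A B]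

theorem core0 [IsNoetherianRing B] [Module.Finite A B] (hinj : Function.Injective (algebraMap A B))
    {f x y : A} (hf : f ≠ 0) (hx : ∀ a, f ∣ x * a → f ∣ a)
    (hy : ∀ a c d, y * a = f * c + x * d → ∃ c1 d1, a = f * c1 + x * d1)
    (hc : ∀ e : ℕ → A, (∀ n m, n ≤ m → f ^ n ∣ e n - e m) → ∃ l, ∀ n, f ^ n ∣ l - e n)
    (hh : ∀ a : A, (∀ n, f ^ n ∣ a) → a = 0)
    (I J : Ideal B) (hIJ : I * J ≤ Ideal.span {algebraMap A B f})
    (hxI : algebraMap A B x ∈ (I ⊔ J).radical) (hyI : algebraMap A B y ∈ (I ⊔ J).radical) :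
    I ≤ (Ideal.span {algebraMap A B f}).radical ∨ J ≤ (Ideal.span {algebraMap A B f}).radical := by
  classical
  obtain ⟨s, δ, ψ, σ, hs, hδ, hψ⟩ := coords (A := A) (B := B)
  set F := algebraMap A B f with hF
  have hprod : ∀ n m, n ≤ m → ∀ i ∈ I ^ n, ∀ j ∈ J ^ m, F ^ n ∣ i * j := by
    intro n m hnm i hi j hj
    have h1 : i * j ∈ (I * J) ^ n := by
      rw [mul_pow]; exact Ideal.mul_mem_mul hi (Ideal.pow_le_pow_right hnm hj)
    have h2 := Ideal.pow_right_mono hIJ n h1
    rwa [Ideal.span_singleton_pow, Ideal.mem_span_singleton] at h2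
  have hprod' : ∀ n m, n ≤ m → ∀ i ∈ I ^ m, ∀ j ∈ J ^ n, F ^ n ∣ i * j := fun n m hnm i hi j hj =>
    hprod n n le_rfl i (Ideal.pow_le_pow_right hnm hi) j hj
  have hpow : ∀ z : B, z ∈ (I ⊔ J).radical → ∀ n, ∃ k, ∃ i ∈ I ^ n, ∃ j ∈ J ^ n, i + j = z ^ k := by
    rintro z ⟨k, hk⟩ n
    refine ⟨k * (n + n), Submodule.mem_sup.1 ?_⟩
    rw [pow_mul]
    exact Ideal.sup_pow_add_le_pow_sup_pow (Ideal.pow_mem_pow hk _)
  choose k i hi j hj hij using hpow _ hxI
  choose l i' hi' j' hj' hij' using hpow _ hyI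
  -- divisibility passes to coordinates and back
  have hco : ∀ n (b : B), F ^ n ∣ b → ∀ t, f ^ n ∣ ψ b t := by
    rintro n _ ⟨c, rfl⟩ t
    rw [hF, ← map_pow, ← Algebra.smul_def, map_smul]
    exact Dvd.intro _ rfl
  have hba : ∀ n (w : s →₀ A), (∀ t, f ^ n ∣ w t) → F ^ n ∣ σ w := by
    intro n w hw
    choose c hc using hw
    have : w = f ^ n • Finsupp.equivFunOnFinite.symm c := by
      ext t; simp [hc t]
    rw [this, map_smul, Algebra.smul_def, map_pow]
    exact Dvd.intro _ rfl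
  have hsm : ∀ (a : A) (b : B) t, ψ (algebraMap A B a * b) t = a * ψ b t := by
    intro a b t
    rw [← Algebra.smul_def, map_smul]; rfl
  have he : ∀ n t, ∃ e, f ^ n ∣ ψ (i n) t - x ^ k n * e := by
    intro n t
    have h1 : F ^ n ∣ algebraMap A B (y ^ l n) * i n - algebraMap A B (x ^ k n) * i' n := by
      rw [map_pow, map_pow, ← hij, ← hij']
      have : (i' n + j' n) * i n - (i n + j n) * i' n = i n * j' n - i' n * j n := by ring
      rw [this]
      exact dvd_sub (hprod n n le_rfl _ (hi n) _ (hj' n)) (hprod n n le_rfl _ (hi' n) _ (hj n))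
    have h2 := hco n _ h1 t
    rw [map_sub, Finsupp.sub_apply, hsm, hsm] at h2
    obtain ⟨c, hc⟩ := h2
    obtain ⟨c1, d1, h3⟩ := reg4 hf hx hy n (k n) (l n) (ψ (i n) t) c (ψ (i' n) t)
      (by linear_combination hc)
    exact ⟨d1, c1, by linear_combination h3⟩
  choose e he using he
  have hcau : ∀ t n m, n ≤ m → f ^ n ∣ e n t - e m t := by
    intro t n m hnm
    have h1 : F ^ n ∣ algebraMap A B (x ^ k m) * i n - algebraMap A B (x ^ k n) * i m := by
      rw [map_pow, map_pow, ← hij, ← hij]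
      have : (i m + j m) * i n - (i n + j n) * i m = i n * j m - i m * j n := by ring
      rw [this]
      exact dvd_sub (hprod n m hnm _ (hi n) _ (hj m)) (hprod' n m hnm _ (hi m) _ (hj n))
    have h2 := hco n _ h1 t
    rw [map_sub, Finsupp.sub_apply, hsm, hsm] at h2
    apply reg1k hf hx n (k n + k m)
    have h3 := (pow_dvd_pow f hnm).trans (he m t)
    have h4 : x ^ (k n + k m) * (e n t - e m t) = (x ^ k m * ψ (i n) t - x ^ k n * ψ (i m) t)
        - x ^ k m * (ψ (i n) t - x ^ k n * e n t) + x ^ k n * (ψ (i m) t - x ^ k m * e m t) := by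
      ring
    rw [h4]
    exact dvd_add (dvd_sub h2 (Dvd.dvd.mul_left (he n t) _)) (Dvd.dvd.mul_left h3 _)
  choose L hL using fun t => hc (fun n => e n t) (hcau t)
  set β := σ (Finsupp.equivFunOnFinite.symm L) with hβ
  set D := algebraMap A B δ with hD
  have hD0 : D ≠ 0 := fun h => hδ (hinj (by rw [← hD, h, map_zero]))
  have h5 : ∀ n, F ^ n ∣ algebraMap A B x ^ k n * β - D * i n := by
    intro n
    have : algebraMap A B x ^ k n * β - D * i n
        = σ (x ^ k n • Finsupp.equivFunOnFinite.symm L - ψ (i n)) := by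
      rw [map_sub, map_smul, hψ, Algebra.smul_def, Algebra.smul_def, map_pow]
    rw [this]
    refine hba n _ fun t => ?_
    have h6 : (x ^ k n • Finsupp.equivFunOnFinite.symm L - ψ (i n)) t
        = x ^ k n * (L t - e n t) - (ψ (i n) t - x ^ k n * e n t) := by
      simp; ring
    rw [h6]
    exact dvd_sub (Dvd.dvd.mul_left (hL t n) _) (he n t)
  -- removing powers of x
  have hstrip : ∀ n q (b : B), F ^ n ∣ algebraMap A B x ^ q * b → F ^ n ∣ D * b := by
    intro n q b h
    rw [hD, ← Algebra.smul_def, ← hψ]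
    refine hba n _ fun t => reg1k hf hx n q _ ?_
    rw [← hsm, map_pow]
    exact hco n _ h t
  have h7 : β * (D - β) = 0 := by
    have h8 : ∀ t, ψ (β * (D - β)) t = 0 := by
      intro t
      refine hh _ fun n => reg1k hf hx n (k n + k n) _ ?_
      rw [← hsm, map_pow]
      refine hco n _ ?_ t
      have h9 : algebraMap A B x ^ (k n + k n) * (β * (D - β))
          = (algebraMap A B x ^ k n * β - D * i n) * (algebraMap A B x ^ k n * (D - β) - D * i n * 0
            ) + D * D * (i n * j n)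
            - D * i n * (algebraMap A B x ^ k n * β - D * i n) := by
        rw [pow_add, ← hij]; ring
      rw [h9]
      exact dvd_sub (dvd_add (Dvd.dvd.mul_right (h5 n) _)
        (Dvd.dvd.mul_left (hprod n n le_rfl _ (hi n) _ (hj n)) _)) (Dvd.dvd.mul_left (h5 n) _)
    have h10 : ψ (β * (D - β)) = 0 := Finsupp.ext h8
    have h11 := hψ (β * (D - β))
    rw [h10, map_zero, Algebra.smul_def] at h11
    exact (mul_eq_zero.1 h11.symm).resolve_left hD0
  rcases mul_eq_zero.1 h7 with h | h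
  · left
    intro u hu
    refine rad_of (mul_ne_zero hD0 hD0) fun n => ⟨n, ?_⟩
    rw [mul_assoc]
    refine hstrip n (k n) _ ?_
    have h12 := h5 n
    rw [h, mul_zero, zero_sub, dvd_neg] at h12
    have : algebraMap A B x ^ k n * (D * u ^ n) = D * i n * u ^ n + D * (u ^ n * j n) := by
      rw [← hij]; ring
    rw [this]
    exact dvd_add (Dvd.dvd.mul_right h12 _)
      (Dvd.dvd.mul_left (hprod n n le_rfl _ (Ideal.pow_mem_pow hu n) _ (hj n)) _)
  · right
    intro u hu
    refine rad_of (mul_ne_zero hD0 hD0) fun n => ⟨n, ?_⟩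
    rw [mul_assoc]
    refine hstrip n (k n) _ ?_
    have h12 := h5 n
    rw [← sub_eq_zero.1 h] at h12
    have : algebraMap A B x ^ k n * (D * u ^ n)
        = (algebraMap A B x ^ k n * D - D * i n) * u ^ n + D * (i n * u ^ n) := by ring
    rw [this]
    exact dvd_add (Dvd.dvd.mul_right h12 _)
      (Dvd.dvd.mul_left (hprod n n le_rfl _ (hi n) _ (Ideal.pow_mem_pow hu n)) _)

/-- the core of the connectedness theorem -/
theorem core [IsNoetherianRing B] [Module.Finite A B] (hinj : Function.Injective (algebraMap A B))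
    {f x y : A} (hf : f ≠ 0) (hx : ∀ a, f ∣ x * a → f ∣ a)
    (hy : ∀ a c d, y * a = f * c + x * d → ∃ c1 d1, a = f * c1 + x * d1)
    (hc : ∀ e : ℕ → A, (∀ n m, n ≤ m → f ^ n ∣ e n - e m) → ∃ l, ∀ n, f ^ n ∣ l - e n)
    (hh : ∀ a : A, (∀ n, f ^ n ∣ a) → a = 0)
    (I J : Ideal B) (hIJ : I * J ≤ (Ideal.span {algebraMap A B f}).radical)
    (hxI : algebraMap A B x ∈ (I ⊔ J).radical) (hyI : algebraMap A B y ∈ (I ⊔ J).radical) :
    I ≤ (Ideal.span {algebraMap A B f}).radical ∨ J ≤ (Ideal.span {algebraMap A B f}).radical := by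
  obtain ⟨N, hN⟩ := Ideal.exists_pow_le_of_le_radical_of_fg hIJ (IsNoetherian.noetherian _)
  have h1 : I ^ (N + 1) * J ^ (N + 1) ≤ Ideal.span {algebraMap A B f} := by
    rw [← mul_pow]
    exact (Ideal.pow_le_pow_right (Nat.le_succ N)).trans hN
  have h2 : (I ⊔ J).radical ≤ (I ^ (N + 1) ⊔ J ^ (N + 1)).radical := by
    rintro z ⟨k, hk⟩
    refine ⟨k * (N + 1 + (N + 1)), ?_⟩
    rw [pow_mul]
    exact Ideal.sup_pow_add_le_pow_sup_pow (Ideal.pow_mem_pow hk _)
  have h3 : ∀ K : Ideal B, K ^ (N + 1) ≤ (Ideal.span {algebraMap A B f}).radical →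
      K ≤ (Ideal.span {algebraMap A B f}).radical := fun K h u hu =>
    Ideal.mem_radical_of_pow_mem (h (Ideal.pow_mem_pow hu _))
  exact (core0 hinj hf hx hy hc hh _ _ h1 (h2 hxI) (h2 hyI)).imp (h3 I) (h3 J)

end core

section complete
variable {A : Type*} [CommRing A] [IsNoetherianRing A] [IsLocalRing A]

theorem haus {f : A} (hf : f ∈ IsLocalRing.maximalIdeal A) (a : A) (h : ∀ n, f ^ n ∣ a) :
    a = 0 := by
  have h0 := Ideal.iInf_pow_eq_bot_of_isLocalRing (IsLocalRing.maximalIdeal A)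
    (IsLocalRing.maximalIdeal.isMaximal A).ne_top
  rw [← Ideal.mem_bot, ← h0]
  refine Ideal.mem_iInf.2 fun n => ?_
  obtain ⟨c, rfl⟩ := h n
  exact Ideal.mul_mem_right _ _ (Ideal.pow_mem_pow hf n)

theorem closed (K : Ideal A) (a : A)
    (h : ∀ m, a ∈ K ⊔ IsLocalRing.maximalIdeal A ^ m) : a ∈ K := by
  have h0 := Ideal.iInf_pow_smul_eq_bot_of_isLocalRing (M := A ⧸ K) (IsLocalRing.maximalIdeal A)
    (IsLocalRing.maximalIdeal.isMaximal A).ne_top
  rw [← Ideal.Quotient.eq_zero_iff_mem, ← Submodule.mem_bot A, ← h0]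
  refine (Submodule.mem_iInf _).2 fun m => ?_
  obtain ⟨b, hb, c, hc, rfl⟩ := Submodule.mem_sup.1 (h m)
  rw [map_add, Ideal.Quotient.eq_zero_iff_mem.2 hb, zero_add]
  have : Ideal.Quotient.mk K c = c • (1 : A ⧸ K) := by
    rw [Algebra.smul_def, mul_one]; rfl
  rw [this]
  exact Submodule.smul_mem_smul hc trivial

theorem cauchy [IsPrecomplete (IsLocalRing.maximalIdeal A) A] {f : A}
    (hf : f ∈ IsLocalRing.maximalIdeal A) (e : ℕ → A) (h : ∀ n m, n ≤ m → f ^ n ∣ e n - e m) :
    ∃ l, ∀ n, f ^ n ∣ l - e n := by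
  have h1 : ∀ {n m}, n ≤ m →
      e n ≡ e m [SMOD (IsLocalRing.maximalIdeal A ^ n • ⊤ : Submodule A A)] := by
    intro n m hnm
    rw [SModEq.sub_mem, smul_eq_mul, Ideal.mul_top]
    obtain ⟨c, hc⟩ := h n m hnm
    rw [hc]
    exact Ideal.mul_mem_right _ _ (Ideal.pow_mem_pow hf n)
  obtain ⟨l, hl⟩ := IsPrecomplete.prec' e h1
  refine ⟨l, fun n => Ideal.mem_span_singleton.1 (closed _ _ fun m => ?_)⟩
  have h2 := hl (n + m)
  rw [SModEq.sub_mem, smul_eq_mul, Ideal.mul_top] at h2
  have : l - e n = -(e n - e (n + m)) + -(e (n + m) - l) := by ring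
  rw [this]
  exact Submodule.add_mem_sup
    (Submodule.neg_mem _ (Ideal.mem_span_singleton.2 (h n (n + m) (Nat.le_add_right n m))))
    (Submodule.neg_mem _ (Ideal.pow_le_pow_right (Nat.le_add_left m n) h2))

/-- the form for a complete local base -/
theorem core_local [IsDomain A] [IsPrecomplete (IsLocalRing.maximalIdeal A) A]
    {B : Type*} [CommRing B] [IsDomain B] [Algebra A B] [Module.Finite A B]
    (hinj : Function.Injective (algebraMap A B))
    {f x y : A} (hfm : f ∈ IsLocalRing.maximalIdeal A) (hf : f ≠ 0)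
    (hx : ∀ a, f ∣ x * a → f ∣ a)
    (hy : ∀ a c d, y * a = f * c + x * d → ∃ c1 d1, a = f * c1 + x * d1)
    (I J : Ideal B) (hIJ : I * J ≤ (Ideal.span {algebraMap A B f}).radical)
    (hxI : algebraMap A B x ∈ (I ⊔ J).radical) (hyI : algebraMap A B y ∈ (I ⊔ J).radical) :
    I ≤ (Ideal.span {algebraMap A B f}).radical ∨ J ≤ (Ideal.span {algebraMap A B f}).radical := by
  haveI : IsNoetherianRing B := IsNoetherianRing.of_finite A B
  exact core hinj hf hx hy (cauchy hfm) (haus hfm) I J hIJ hxI hyI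

end complete

end Vale.Agent.P022G.Conn.H89
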