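import Mathlib

/-!
P022G, block CONN, part 1: connectedness of `V(f)` for a domain which is a second syzygy over a
complete noetherian domain.
-/

set_option linter.all false

namespace Vale.Agent.P022G.Conn

open Function

theorem complete_fin {R M : Type*} [CommRing R] [AddCommGroup M] [Module R M]
    [IsNoetherianRing R] (I : Ideal R) [IsAdicComplete I R] [Module.Finite R M] :
    IsAdicComplete I M where
  toIsHausdorff := .of_le_jacobson I M (IsAdicComplete.le_jacobson_bot I)
  toIsPrecomplete := AdicCompletion.of_surjective_iff.1 fun x => by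
    obtain ⟨t, rfl⟩ := AdicCompletion.ofTensorProduct_surjective_of_finite I M x
    induction t with
    | zero => exact ⟨0, by simp⟩
    | tmul r m =>
      obtain ⟨r, rfl⟩ := AdicCompletion.of_surjective I R r
      exact ⟨r • m, by
        rw [AdicCompletion.ofTensorProduct_tmul, map_smul]
        exact (algebraMap_smul (AdicCompletion I R) r _).symm⟩
    | add a b ha hb =>
      obtain ⟨a, ha⟩ := ha
      obtain ⟨b, hb⟩ := hb
      exact ⟨a + b, by rw [map_add, map_add, ha, hb]⟩

theorem complete_map {R L : Type*} [CommRing R] [CommRing L] [IsNoetherianRing R] (I : Ideal R)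
    [IsAdicComplete I R] [Algebra R L] [Module.Finite R L] :
    IsAdicComplete (I.map (algebraMap R L)) L :=
  have := complete_fin (M := L) I
  { toIsHausdorff := IsHausdorff.map_algebraMap_iff.2 inferInstance
    toIsPrecomplete := IsPrecomplete.map_algebraMap_iff.2 inferInstance }

/-- in a complete domain an idempotent modulo the ideal is trivial up to a unit -/
theorem unit_or {E : Type*} [CommRing E] [IsDomain E] (J : Ideal E) [IsAdicComplete J E] {e : E}
    (he : e * (1 - e) ∈ J) : IsUnit e ∨ IsUnit (1 - e) := by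
  have hH : HenselianRing E J := inferInstance
  have hm : (Polynomial.X ^ 2 - Polynomial.X : Polynomial E).Monic := by
    refine Polynomial.monic_X_pow_sub ?_
    rw [Polynomial.degree_X]
    exact_mod_cast one_lt_two
  obtain ⟨a, ha, hae⟩ := hH.is_henselian _ hm e (by
      have : (Polynomial.X ^ 2 - Polynomial.X : Polynomial E).eval e = -(e * (1 - e)) := by
        simp; ring
      rw [this]; exact J.neg_mem he) (by
      have h1 : (Polynomial.X ^ 2 - Polynomial.X : Polynomial E).derivative.eval e = 2 * e - 1 := by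
        simp [one_add_one_eq_two]
      rw [h1]
      refine IsUnit.of_mul_eq_one (Ideal.Quotient.mk J (2 * e - 1)) ?_
      rw [← map_mul, ← map_one (Ideal.Quotient.mk J), Ideal.Quotient.eq]
      have : (2 * e - 1) * (2 * e - 1) - 1 = -4 * (e * (1 - e)) := by ring
      rw [this]; exact J.mul_mem_left _ he)
  have h2 : a * (a - 1) = 0 := by
    have := ha.eq_zero
    simp at this
    linear_combination this
  have hj : ∀ z ∈ J, IsUnit (1 + z) := fun z hz => by
    have := Ideal.mem_jacobson_bot.1 (hH.jac hz) 1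
    rwa [mul_one, add_comm] at this
  rcases mul_eq_zero.1 h2 with h | h
  · right
    have := hj _ hae
    rwa [h, zero_sub, ← sub_eq_add_neg] at this
  · left
    have := hj _ (J.neg_mem hae)
    rwa [sub_eq_zero.1 h, show (1 : E) + -(1 - e) = e by ring] at this

section syz

variable {A E : Type*} [CommRing A] [IsDomain A] [AddCommGroup E] [Module A E] {a b : ℕ}
  {ι : E →ₗ[A] (Fin a → A)} {φ : (Fin a → A) →ₗ[A] (Fin b → A)}

theorem desc (hι : Injective ι) (hex : LinearMap.range ι = LinearMap.ker φ) {f : A} (hf : f ≠ 0)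
    {z : E} {v : Fin a → A} (h : ι z = f • v) : ∃ r : E, z = f • r := by
  have h1 : φ (ι z) = 0 := by
    rw [← LinearMap.mem_ker, ← hex]; exact LinearMap.mem_range_self _ _
  rw [h, map_smul] at h1
  have h2 : v ∈ LinearMap.range ι := by
    rw [hex, LinearMap.mem_ker]
    exact (smul_eq_zero.1 h1).resolve_left hf
  obtain ⟨r, rfl⟩ := h2
  exact ⟨r, hι (by rw [h, map_smul])⟩

theorem reg1 (hι : Injective ι) (hex : LinearMap.range ι = LinearMap.ker φ) {f x : A} (hf : f ≠ 0)
    {n : ℕ} (hx : ∀ c, x * c ∈ Ideal.span {f ^ (n + 1)} → c ∈ Ideal.span {f ^ (n + 1)})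
    {z w : E} (h : x • z = f • w) : ∃ r : E, z = f • r := by
  have h1 : ∀ s, ∃ u, ι z s = f * u := fun s => by
    have h2 : x * ι z s = f * ι w s := by
      have := congrArg (fun t => ι t s) h
      simpa using this
    obtain ⟨u, hu⟩ := Ideal.mem_span_singleton'.1 (hx (f ^ n * ι z s)
      (Ideal.mem_span_singleton'.2 ⟨ι w s, by linear_combination (-f ^ n) * h2⟩))
    refine ⟨u, mul_left_cancel₀ (pow_ne_zero n hf) ?_⟩
    linear_combination -hu
  choose u hu using h1
  exact desc hι hex hf (v := u) (funext fun s => by simpa using hu s)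

theorem split [IsNoetherianRing A] (hι : Injective ι)
    (hex : LinearMap.range ι = LinearMap.ker φ) {f : A} (hf : f ≠ 0) :
    ∃ n : ℕ, ∀ x y : A,
      (∀ c, x * c ∈ Ideal.span {f ^ (n + 1)} → c ∈ Ideal.span {f ^ (n + 1)}) →
      (∀ c, y * c ∈ Ideal.span {f ^ (n + 1)} ⊔ Ideal.span {x} →
        c ∈ Ideal.span {f ^ (n + 1)} ⊔ Ideal.span {x}) →
      ∀ i i' w : E, y • i = x • i' + f ^ (n + 1) • w → ∃ e r : E, i = x • e + f • r := by
  obtain ⟨k, hk⟩ := (Ideal.span {f}).exists_pow_inf_eq_pow_smul (LinearMap.range φ)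
  refine ⟨k, fun x y hx hy i i' w h => ?_⟩
  have h1 : ∀ s, ∃ u e, ι i s = f ^ (k + 1) * u + x * e := fun s => by
    have h2 : y * ι i s = x * ι i' s + f ^ (k + 1) * ι w s := by
      have := congrArg (fun t => ι t s) h
      simpa using this
    have h3 := hy (ι i s) (by
      rw [h2, add_comm (x * ι i' s)]
      exact Submodule.add_mem_sup (Ideal.mem_span_singleton.2 (Dvd.intro _ rfl))
        (Ideal.mem_span_singleton.2 (Dvd.intro _ rfl)))
    obtain ⟨p, hp, q, hq, hpq⟩ := Submodule.mem_sup.1 h3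
    obtain ⟨u, rfl⟩ := Ideal.mem_span_singleton.1 hp
    obtain ⟨e, rfl⟩ := Ideal.mem_span_singleton.1 hq
    exact ⟨u, e, hpq.symm⟩
  choose u e hue using h1
  have h4 : ι i = f ^ (k + 1) • u + x • e := funext fun s => by simpa using hue s
  have h5 : φ (ι i) = 0 := by
    rw [← LinearMap.mem_ker, ← hex]; exact LinearMap.mem_range_self _ _
  rw [h4, map_add, map_smul, map_smul] at h5
  have h6 : ∀ t, ∃ g, φ e t = f ^ (k + 1) * g := fun t => by
    have h7 : f ^ (k + 1) * φ u t + x * φ e t = 0 := by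
      have := congrFun h5 t
      simpa using this
    exact Ideal.mem_span_singleton.1 (hx (φ e t)
      (Ideal.mem_span_singleton'.2 ⟨-φ u t, by linear_combination -h7⟩))
  choose g hg using h6
  have h8 : φ e ∈ (Ideal.span {f} ^ (k + 1) • ⊤ : Submodule A (Fin b → A)) ⊓ LinearMap.range φ := by
    refine ⟨?_, LinearMap.mem_range_self _ _⟩
    have : φ e = f ^ (k + 1) • g := funext fun t => by simpa using hg t
    rw [this]
    exact Submodule.smul_mem_smul (Ideal.pow_mem_pow (Ideal.mem_span_singleton_self f) _) trivial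
  rw [hk (k + 1) (Nat.le_succ k), Nat.add_sub_cancel_left, pow_one] at h8
  have h9 : φ e ∈ (Ideal.span {f} • LinearMap.range φ : Submodule A (Fin b → A)) :=
    Submodule.smul_mono le_rfl inf_le_right h8
  rw [Submodule.ideal_span_singleton_smul, Submodule.mem_smul_pointwise_iff_exists] at h9
  obtain ⟨_, ⟨v, rfl⟩, hv⟩ := h9
  have h10 : e - f • v ∈ LinearMap.range ι := by
    rw [hex, LinearMap.mem_ker, map_sub, map_smul, hv, sub_self]
  obtain ⟨e0, he0⟩ := h10
  obtain ⟨r, hr⟩ := desc hι hex hf (z := i - x • e0) (v := f ^ k • u + x • v) (by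
    rw [map_sub, map_smul, he0, h4]
    module)
  exact ⟨e0, r, by rw [← hr]; abel⟩

end syz

/-- the hypothesis of the connectedness lemma at level `n` -/
def Hyp {A B : Type*} [CommRing A] [CommRing B] [Algebra A B] (f : A) (I J : Ideal B) (n : ℕ) :
    Prop :=
  ∃ (I1 J1 : Ideal B) (x y : A), I ≤ I1.radical ∧ J ≤ J1.radical ∧
    I1 * J1 ≤ Ideal.span {algebraMap A B (f ^ (n + 1))} ∧
    algebraMap A B x ∈ I1 ⊔ J1 ∧ algebraMap A B y ∈ I1 ⊔ J1 ∧
    (∀ c, x * c ∈ Ideal.span {f ^ (n + 1)} → c ∈ Ideal.span {f ^ (n + 1)}) ∧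
    (∀ c, y * c ∈ Ideal.span {f ^ (n + 1)} ⊔ Ideal.span {x} →
      c ∈ Ideal.span {f ^ (n + 1)} ⊔ Ideal.span {x})

theorem core_syz {A E : Type*} [CommRing A] [IsDomain A] [IsNoetherianRing A] [CommRing E]
    [IsDomain E] [Algebra A E] [Module.Finite A E] {a b : ℕ}
    {ι : E →ₗ[A] (Fin a → A)} {φ : (Fin a → A) →ₗ[A] (Fin b → A)} (hι : Injective ι)
    (hex : LinearMap.range ι = LinearMap.ker φ) (m : Ideal A) [IsAdicComplete m A] {f : A}
    (hfm : f ∈ m) (hf : f ≠ 0) (I J : Ideal E) (h : ∀ n, Hyp f I J n) :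
    I ≤ (Ideal.span {algebraMap A E f}).radical ∨ J ≤ (Ideal.span {algebraMap A E f}).radical := by
  obtain ⟨n, hn⟩ := split hι hex hf
  obtain ⟨I1, J1, x, y, hI, hJ, hIJ, hx1, hy1, hx, hy⟩ := h n
  obtain ⟨i, hi, j, hj, hij⟩ := Submodule.mem_sup.1 hx1
  obtain ⟨i', hi', j', hj', hij'⟩ := Submodule.mem_sup.1 hy1
  have hm : ∀ p ∈ I1, ∀ q ∈ J1, ∃ w, p * q = algebraMap A E f ^ (n + 1) * w := fun p hp q hq => by
    have := Ideal.mem_span_singleton.1 (hIJ (Ideal.mul_mem_mul hp hq))
    rwa [map_pow] at this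
  obtain ⟨w1, hw1⟩ := hm i hi j' hj'
  obtain ⟨w2, hw2⟩ := hm i' hi' j hj
  obtain ⟨w3, hw3⟩ := hm i hi j hj
  obtain ⟨e, r, her⟩ := hn x y hx hy i i' (w1 - w2) (by
    simp only [Algebra.smul_def, map_pow]
    rw [← hij, ← hij']
    linear_combination hw1 - hw2)
  simp only [Algebra.smul_def] at her
  set X := algebraMap A E x with hX
  set F := algebraMap A E f with hF
  have reg : ∀ z w : E, X * z = F * w → ∃ r, z = F * r := fun z w hz => by
    have := reg1 hι hex hf hx (z := z) (w := w) (by simpa only [Algebra.smul_def] using hz)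
    simpa only [Algebra.smul_def] using this
  have hj2 : j = X * (1 - e) - F * r := by linear_combination hij - her
  obtain ⟨t1, ht1⟩ := reg (X * (e * (1 - e)))
    (F ^ n * w3 - r * X * (1 - e) + X * e * r + F * r * r) (by
      rw [her, hj2] at hw3
      linear_combination hw3)
  obtain ⟨t, ht⟩ := reg (e * (1 - e)) t1 ht1
  have := complete_map (L := E) m
  have hu := unit_or (m.map (algebraMap A E)) (e := e) (by
    rw [ht]; exact Ideal.mul_mem_right _ _ (Ideal.mem_map_of_mem _ hfm))
  rcases hu with ⟨u, hu⟩ | ⟨u, hu⟩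
  · right
    refine hJ.trans (Ideal.radical_mono fun q hq => ?_)
    obtain ⟨w, hw⟩ := hm i hi q hq
    have h1 : 1 - e = F * (↑u⁻¹ * t) := by
      have h2 : (↑u⁻¹ : E) * e = 1 := by rw [← hu]; exact u.inv_mul
      linear_combination (↑u⁻¹ : E) * ht - (1 - e) * h2
    obtain ⟨r', hr'⟩ := reg q (F ^ n * w + q * (X * (↑u⁻¹ * t) - r)) (by
      rw [h1] at hj2
      linear_combination hw + q * hj2 - q * hij)
    exact Ideal.mem_span_singleton.2 ⟨r', hr'⟩
  · left
    refine hI.trans (Ideal.radical_mono fun p hp => ?_)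
    obtain ⟨w, hw⟩ := hm p hp j hj
    have h1 : e = F * (↑u⁻¹ * t) := by
      have h2 : (↑u⁻¹ : E) * (1 - e) = 1 := by rw [← hu]; exact u.inv_mul
      linear_combination (↑u⁻¹ : E) * ht - e * h2
    obtain ⟨r', hr'⟩ := reg p (F ^ n * w + p * (X * (↑u⁻¹ * t) + r)) (by
      rw [h1] at her
      linear_combination hw + p * her - p * hij)
    exact Ideal.mem_span_singleton.2 ⟨r', hr'⟩

end Vale.Agent.P022G.Conn
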