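import Vale.Agent.P022D.CA.Pow
import Vale.Agent.P177.Bd4.B3
import Vale.Agent.P022G.Conn.Core

/-!
# Noether normalisation with a prescribed first parameter, and the dimension form of the
connectedness theorem
-/

universe u

open IsLocalRing Function

namespace Vale.Agent.P022G.Conn

open Vale.Agent.P022D.CA Vale.Agent.P298.H25

theorem exists_ev {ι O R : Type*} [Finite ι] [CommRing O] [CommRing R] (J : Ideal R)
    [IsAdicComplete J R] (σ : O →+* R) (x : ι → R) (hx : ∀ i, x i ∈ J) :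
    ∃ φ : MvPowerSeries ι O →+* R, (∀ o, φ (MvPowerSeries.C o) = σ o) ∧
      ∀ i, φ (MvPowerSeries.X i) = x i := by
  have hI : ∀ n, MvPolynomial.idealOfVars ι O ^ n ≤
      (J ^ n).comap (MvPolynomial.eval₂Hom σ x) := by
    intro n
    rw [← Ideal.map_le_iff_le_comap, Ideal.map_pow]
    apply Ideal.pow_right_mono
    rw [MvPolynomial.idealOfVars, Ideal.map_span, Ideal.span_le]
    rintro _ ⟨_, ⟨i, rfl⟩, rfl⟩
    simpa using hx i
  let f : (n : ℕ) → MvPowerSeries ι O →+* R ⧸ J ^ n := fun n =>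
    (Ideal.quotientMap (J ^ n) (MvPolynomial.eval₂Hom σ x) (hI n)).comp
      (MvPowerSeries.truncTotalAlgHom ι O n).toRingHom
  have hf : ∀ {m n : ℕ} (hle : m ≤ n), (Ideal.Quotient.factorPow J hle).comp (f n) = f m := by
    intro m n hle
    ext p
    have h1 := hI m (MvPowerSeries.truncTotal_sub_truncTotal_mem_pow_idealOfVars hle le_rfl p)
    rw [Ideal.mem_comap, map_sub, ← Ideal.Quotient.mk_eq_mk_iff_sub_mem] at h1
    exact h1
  have key : ∀ p : MvPolynomial ι O, IsAdicComplete.liftRingHom J f hf (p : MvPowerSeries ι O) =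
      MvPolynomial.eval₂Hom σ x p := by
    intro p
    rw [← sub_eq_zero]
    apply IsHausdorff.haus (I := J) inferInstance
    intro n
    rw [SModEq.zero, smul_eq_mul, Ideal.mul_top, ← Ideal.Quotient.eq_zero_iff_mem, map_sub,
      IsAdicComplete.mk_liftRingHom, sub_eq_zero]
    have h2 := (MvPowerSeries.truncTotalAlgHom ι O n).commutes p
    change Ideal.quotientMap (J ^ n) (MvPolynomial.eval₂Hom σ x) (hI n)
      (MvPowerSeries.truncTotalAlgHom ι O n (p : MvPowerSeries ι O)) = _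
    erw [h2]
    rfl
  refine ⟨IsAdicComplete.liftRingHom J f hf, fun o => ?_, fun i => ?_⟩
  · rw [← MvPolynomial.coe_C, key]; simp
  · rw [← MvPolynomial.coe_X, key]; simp

theorem isPrecomplete_pi {P : Type*} [CommRing P] (I : Ideal P) [IsPrecomplete I P] (ι : Type*)
    [Finite ι] : IsPrecomplete I (ι → P) := by
  classical
  have := Fintype.ofFinite ι
  refine ⟨fun f hf => ?_⟩
  have h1 : ∀ i, ∃ l : P, ∀ n, f n i ≡ l [SMOD (I ^ n • ⊤ : Submodule P P)] := fun i =>
    IsPrecomplete.prec inferInstance (f := fun n => f n i) fun {m n} hmn => by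
      have h2 := SModEq.sub_mem.1 (hf hmn)
      rw [SModEq.sub_mem]
      have h3 := Submodule.mem_map_of_mem
        (f := LinearMap.proj (R := P) (φ := fun _ : ι => P) i) h2
      rw [Submodule.map_smul''] at h3
      exact Submodule.smul_mono le_rfl le_top h3
  choose l hl using h1
  refine ⟨l, fun n => SModEq.sub_mem.2 ?_⟩
  rw [← Finset.univ_sum_single (f n - l)]
  refine Submodule.sum_mem _ fun i _ => ?_
  have h3 := Submodule.mem_map_of_mem (f := LinearMap.single P (fun _ : ι => P) i)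
    (SModEq.sub_mem.1 (hl i n))
  rw [Submodule.map_smul''] at h3
  exact Submodule.smul_mono le_rfl le_top h3

/-- parameters of a quotient of a Noetherian local ring -/
theorem exists_par {R : Type*} [CommRing R] [IsLocalRing R] [IsNoetherianRing R]
    (P : Ideal R) (hP : P ≠ ⊤) :
    ∃ (n : ℕ) (x : Fin n → R), ringKrullDim (R ⧸ P) = n ∧ (∀ i, x i ∈ maximalIdeal R) ∧
      maximalIdeal R ≤ (P ⊔ Ideal.span (Set.range x)).radical := by
  have hnt : Nontrivial (R ⧸ P) := Ideal.Quotient.nontrivial_iff.2 hP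
  have hloc : IsLocalRing (R ⧸ P) :=
    .of_surjective' (Ideal.Quotient.mk P) Ideal.Quotient.mk_surjective
  obtain ⟨s, hs, hcard⟩ :=
    Ideal.exists_finset_card_eq_height_of_isNoetherianRing (maximalIdeal (R ⧸ P))
  have hrad : maximalIdeal (R ⧸ P) ≤ (Ideal.span (s : Set (R ⧸ P))).radical := by
    rw [Ideal.radical_eq_sInf]
    refine le_sInf ?_
    rintro q ⟨hq1, hq⟩
    exact hs.2 ⟨hq, hq1⟩ (le_maximalIdeal hq.ne_top)
  choose g hg using fun i : Fin s.card =>
    Ideal.Quotient.mk_surjective (I := P) (s.equivFin.symm i).1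
  have h2 : (maximalIdeal R).map (Ideal.Quotient.mk P) = maximalIdeal (R ⧸ P) :=
    map_maximalIdeal_of_surjective _ Ideal.Quotient.mk_surjective
  refine ⟨s.card, g, ?_, fun i => ?_, fun x hx => ?_⟩
  · rw [← IsLocalRing.maximalIdeal_height_eq_ringKrullDim, ← hcard]
    rfl
  · have hy' : (s.equivFin.symm i).1 ∈ maximalIdeal (R ⧸ P) :=
      hs.1.2 (Ideal.subset_span (s.equivFin.symm i).2)
    rw [mem_maximalIdeal, mem_nonunits_iff] at hy' ⊢
    intro hu
    exact hy' (hg i ▸ hu.map _)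
  · obtain ⟨k, hk⟩ := hrad (h2 ▸ Ideal.mem_map_of_mem _ hx)
    refine ⟨k, ?_⟩
    have h3 : Ideal.span (s : Set (R ⧸ P)) ≤
        (Ideal.span (Set.range g)).map (Ideal.Quotient.mk P) := by
      rw [Ideal.span_le]
      intro y hy
      have h4 := hg (s.equivFin ⟨y, hy⟩)
      rw [Equiv.symm_apply_apply] at h4
      rw [← show _ = y from h4]
      exact Ideal.mem_map_of_mem _ (Ideal.subset_span ⟨_, rfl⟩)
    have h4 := h3 hk
    rw [← map_pow, Ideal.mem_map_iff_of_surjective _ Ideal.Quotient.mk_surjective] at h4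
    obtain ⟨y, hy, hxy⟩ := h4
    rw [eq_comm, Ideal.Quotient.mk_eq_mk_iff_sub_mem] at hxy
    have h5 := Ideal.add_mem _ (Ideal.mem_sup_left hxy) (Ideal.mem_sup_right hy)
    rwa [sub_add_cancel] at h5

theorem dim_le_up {R A : Type*} [CommRing R] [CommRing A]
    [Algebra R A] [Algebra.IsIntegral R A] (hinj : Injective (algebraMap R A)) :
    ringKrullDim R ≤ ringKrullDim A := by
  refine iSup_le fun l => ?_
  obtain ⟨P, hP⟩ := (algebraMap_isIntegral_iff.2 ‹Algebra.IsIntegral R A›).comap_surjective hinj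
    l.head
  have hlo : P.asIdeal.LiesOver l.head.asIdeal := ⟨by rw [← hP]; rfl⟩
  obtain ⟨L, hL, -⟩ := Ideal.exists_ltSeries_of_hasGoingUp l P.asIdeal
  rw [← hL]
  exact Order.LTSeries.length_le_krullDim L

theorem dim_le_down {R A : Type*} [CommRing R] [CommRing A]
    [Algebra R A] [Algebra.IsIntegral R A] : ringKrullDim A ≤ ringKrullDim R := by
  refine Order.krullDim_le_of_strictMono (PrimeSpectrum.comap (algebraMap R A)) ?_
  intro p q h
  have := p.isPrime
  exact Ideal.IsIntegral.comap_lt_comap (R := R) (I := p.asIdeal) (J := q.asIdeal) h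

/-- an integral extension keeps the dimension of quotients -/
theorem dim_comap {R A : Type*} [CommRing R] [CommRing A]
    [Algebra R A] [Algebra.IsIntegral R A] (Q : Ideal A) :
    ringKrullDim (R ⧸ Q.comap (algebraMap R A)) = ringKrullDim (A ⧸ Q) :=
  le_antisymm (dim_le_up Ideal.algebraMap_quotient_injective) dim_le_down

/-- complete Nakayama: finite modulo the ideal of the variables gives finite -/
theorem finite_ev {F B ι : Type*} [Finite ι] [Field F] [CommRing B] [IsLocalRing B]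
    [IsNoetherianRing B] (φ : MvPowerSeries ι F →+* B)
    (hσ : ∀ b, ∃ c, b - φ (MvPowerSeries.C c) ∈ maximalIdeal B)
    (hm : ∀ i, φ (MvPowerSeries.X i) ∈ maximalIdeal B)
    (hr : maximalIdeal B ≤ (Ideal.span (Set.range fun i => φ (MvPowerSeries.X i))).radical) :
    φ.Finite := by
  classical
  let _ := φ.toAlgebra
  have hs : ∀ N : ℕ, ∃ M : Submodule (MvPowerSeries ι F) B, M.FG ∧
      ∀ b, ∃ y ∈ M, b - y ∈ maximalIdeal B ^ N := by
    intro N
    induction N with
    | zero => exact ⟨⊥, Submodule.fg_bot, fun b => ⟨0, Submodule.zero_mem _, by simp⟩⟩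
    | succ N ih =>
      obtain ⟨M, hM, h⟩ := ih
      obtain ⟨t, ht⟩ := IsNoetherian.noetherian (maximalIdeal B ^ N)
      refine ⟨M ⊔ Submodule.span _ (t : Set B), hM.sup ⟨t, rfl⟩, fun b => ?_⟩
      obtain ⟨y, hy, hb⟩ := h b
      rw [← ht, Submodule.mem_span_finset] at hb
      obtain ⟨c, -, hc⟩ := hb
      choose c' hc' using fun i => hσ (c i)
      refine ⟨y + ∑ i ∈ t, (MvPowerSeries.C (c' i) : MvPowerSeries ι F) • i,
        Submodule.add_mem_sup hy (Submodule.sum_mem _ fun i hi =>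
          Submodule.smul_mem _ _ (Submodule.subset_span hi)), ?_⟩
      rw [← sub_sub, ← hc, ← Finset.sum_sub_distrib]
      refine Ideal.sum_mem _ fun i hi => ?_
      have h1 : c i • i - (MvPowerSeries.C (c' i) : MvPowerSeries ι F) • i =
          (c i - φ (MvPowerSeries.C (c' i))) * i := by
        rw [sub_mul, Algebra.smul_def, Algebra.smul_def]
        rfl
      rw [h1, pow_succ']
      exact Ideal.mul_mem_mul (hc' i) (ht ▸ Submodule.subset_span hi)
  obtain ⟨N, hN⟩ := Ideal.exists_pow_le_of_le_radical_of_fg hr (IsNoetherian.noetherian _)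
  obtain ⟨M, hM, h⟩ := hs N
  obtain ⟨n, g, hg⟩ := Submodule.fg_iff_exists_fin_generating_family.1 hM
  let I : Ideal (MvPowerSeries ι F) := Ideal.span (Set.range MvPowerSeries.X)
  have hmap : I.map (algebraMap (MvPowerSeries ι F) B) =
      Ideal.span (Set.range fun i => φ (MvPowerSeries.X i)) := by
    rw [Ideal.map_span, ← Set.range_comp]; rfl
  have hne : I.map (algebraMap (MvPowerSeries ι F) B) ≠ ⊤ := by
    rw [hmap]
    refine ne_top_of_le_ne_top (maximalIdeal.isMaximal B).ne_top (Ideal.span_le.2 ?_)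
    rintro _ ⟨i, rfl⟩
    exact hm i
  have hH : IsHausdorff (I.map (algebraMap (MvPowerSeries ι F) B)) B :=
    IsHausdorff.of_isLocalRing _ _ hne
  have hH' : IsHausdorff I B := IsHausdorff.map_algebraMap_iff.1 hH
  have := isPrecomplete_pi I (Fin n)
  refine Module.Finite.of_surjective (Fintype.linearCombination (MvPowerSeries ι F) g)
    (surjective_of_mkQ_comp_surjective (I := I) fun y => ?_)
  obtain ⟨b, rfl⟩ := Submodule.mkQ_surjective _ y
  obtain ⟨y, hy, hb⟩ := h b
  rw [← hg, Submodule.mem_span_range_iff_exists_fun] at hy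
  obtain ⟨c, hc⟩ := hy
  refine ⟨c, ?_⟩
  rw [LinearMap.comp_apply, Fintype.linearCombination_apply, hc, Submodule.mkQ_apply,
    Submodule.mkQ_apply, eq_comm, Submodule.Quotient.eq, Ideal.smul_top_eq_map,
    Submodule.restrictScalars_mem, hmap]
  exact hN hb

theorem dim_quot_bot {A : Type u} [CommRing A] : ringKrullDim (A ⧸ (⊥ : Ideal A)) = ringKrullDim A :=
  ringKrullDim_eq_of_ringEquiv (RingEquiv.quotientBot A)

/-- Noether normalisation with prescribed first parameter -/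
theorem nn {F B : Type u} [Field F] [CommRing B] [IsDomain B] [IsLocalRing B]
    [IsNoetherianRing B] [IsAdicComplete (maximalIdeal B) B] (σ : F →+* B)
    (hσ : ∀ b, ∃ c, b - σ c ∈ maximalIdeal B) {f : B} (hf : f ∈ maximalIdeal B) (hf0 : f ≠ 0) :
    ∃ (e : ℕ) (φ : MvPowerSeries (Fin (e + 1)) F →+* B), φ.Finite ∧ Injective φ ∧
      φ (MvPowerSeries.X 0) = f ∧ (∀ c, φ (MvPowerSeries.C c) = σ c) ∧
      ringKrullDim (B ⧸ Ideal.span {f}) = e := by
  have hP : Ideal.span {f} ≠ ⊤ := ne_top_of_le_ne_top (maximalIdeal.isMaximal B).ne_top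
    ((Ideal.span_singleton_le_iff_mem _).2 hf)
  obtain ⟨e, x, he, hx, hr⟩ := exists_par _ hP
  obtain ⟨φ, hC, hX⟩ := exists_ev (ι := Fin (e + 1)) (maximalIdeal B) σ (Fin.cons f x)
    (fun i => Fin.cases hf hx i)
  have hfin : φ.Finite := by
    refine finite_ev φ (fun b => by simpa only [hC] using hσ b)
      (fun i => by rw [hX]; exact Fin.cases hf hx i) (hr.trans (Ideal.radical_mono ?_))
    refine sup_le ((Ideal.span_singleton_le_iff_mem _).2 (Ideal.subset_span ⟨0, ?_⟩))
      (Ideal.span_mono ?_)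
    · exact hX 0
    · rintro _ ⟨i, rfl⟩
      exact ⟨i.succ, hX _⟩
  refine ⟨e, φ, hfin, ?_, hX 0, hC, he⟩
  rw [RingHom.injective_iff_ker_eq_bot]
  by_contra hk
  let _ := φ.toAlgebra
  have : Module.Finite (MvPowerSeries (Fin (e + 1)) F) B := hfin
  obtain ⟨P, hP1, hP2, hP3⟩ := dimGE_prime he.ge
  have h1 := dimGE_succ (Q := ⊥) Ideal.isPrime_bot (bot_lt_iff_ne_bot.2 fun h => hf0 (by
    have := hP2 (Ideal.mem_span_singleton_self f)
    rwa [h] at this)) hP3
  rw [← dim_comap (R := MvPowerSeries (Fin (e + 1)) F)] at h1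
  have h2 := dimGE_succ (Q := ⊥) Ideal.isPrime_bot (bot_lt_iff_ne_bot.2 hk) h1
  rw [dim_quot_bot, Vale.Agent.P177.mvPowerSeries_ringKrullDim, Nat.card_eq_fintype_card,
    Fintype.card_fin] at h2
  have h3 : e + 1 + 1 ≤ e + 1 := by exact_mod_cast h2
  omega

/-- the dimension form -/
theorem dimform {F B : Type u} [Field F] [CommRing B] [IsDomain B] [IsLocalRing B]
    [IsNoetherianRing B] [IsAdicComplete (maximalIdeal B) B] (σ : F →+* B)
    (hσ : ∀ b, ∃ c, b - σ c ∈ maximalIdeal B) {f : B} (hf : f ∈ maximalIdeal B) {I J : Ideal B}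
    (hIJ : I * J ≤ (Ideal.span {f}).radical) {k : ℕ}
    (hB : ((k + 2 : ℕ) : WithBot ℕ∞) ≤ ringKrullDim B)
    (hk : ¬ (k : WithBot ℕ∞) ≤ ringKrullDim (B ⧸ (Ideal.span {f} ⊔ I ⊔ J))) :
    I ≤ (Ideal.span {f}).radical ∨ J ≤ (Ideal.span {f}).radical := by
  by_cases hf0 : f = 0
  · subst hf0
    have h0 : (Ideal.span {(0 : B)}) = ⊥ := Ideal.span_singleton_eq_bot.2 rfl
    rw [h0, Ideal.isPrime_bot.radical] at hIJ ⊢
    exact Ideal.isPrime_bot.mul_le.1 hIJ
  by_cases hI : I = ⊤
  · right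
    rwa [hI, Ideal.top_mul] at hIJ
  by_cases hJ : J = ⊤
  · left
    rwa [hJ, Ideal.mul_top] at hIJ
  obtain ⟨e, φ, hfin, hinj, hX, -, he⟩ := nn σ hσ hf hf0
  let _ := φ.toAlgebra
  have : Module.Finite (MvPowerSeries (Fin (e + 1)) F) B := hfin
  have hke : k + 2 ≤ e + 1 := by
    rw [← dim_quot_bot] at hB
    have h1 := dimGE_sup (k := k + 1) hf hB
    rw [bot_sup_eq, he] at h1
    have h2 : k + 1 ≤ e := by exact_mod_cast h1
    omega
  have hX0 : (MvPowerSeries.X 0 : MvPowerSeries (Fin (e + 1)) F) ≠ 0 := fun h => hf0 (by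
    rw [← hX, h, map_zero])
  have hXm : (MvPowerSeries.X 0 : MvPowerSeries (Fin (e + 1)) F) ∈ maximalIdeal _ :=
    mem_max_power.2 (MvPowerSeries.constantCoeff_X _)
  have hX' : algebraMap (MvPowerSeries (Fin (e + 1)) F) B (MvPowerSeries.X 0) = f := hX
  have : IsDomain (MvPowerSeries (Fin (e + 1)) F) := hinj.isDomain φ
  have h := core (A := MvPowerSeries (Fin (e + 1)) F) (B := B) hinj
    (Ideal.span (Set.range MvPowerSeries.X)) (f := MvPowerSeries.X 0)
    (Ideal.subset_span ⟨0, rfl⟩) hX0 I J fun n => ?_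
  · rwa [hX'] at h
  have hr : I * J ≤ (Ideal.span {f ^ (n + 1)}).radical := by
    rwa [← Ideal.span_singleton_pow, Ideal.radical_pow _ (Nat.succ_ne_zero n)]
  obtain ⟨N, hN⟩ := Ideal.exists_pow_le_of_le_radical_of_fg hr (IsNoetherian.noetherian _)
  set g : MvPowerSeries (Fin (e + 1)) F := MvPowerSeries.X 0 ^ (n + 1) with hg
  set J' : Ideal (MvPowerSeries (Fin (e + 1)) F) :=
    (I ^ (N + 1) ⊔ J ^ (N + 1)).comap (algebraMap _ B) with hJ'
  have hgm : g ∈ maximalIdeal _ := Ideal.pow_mem_of_mem _ hXm _ (Nat.succ_pos n)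
  have hJm : J' ≤ maximalIdeal _ := by
    refine le_maximalIdeal (Ideal.comap_ne_top _ ?_)
    refine ne_top_of_le_ne_top (maximalIdeal.isMaximal B).ne_top (sup_le ?_ ?_)
    · exact (Ideal.pow_le_self (Nat.succ_ne_zero N)).trans (le_maximalIdeal hI)
    · exact (Ideal.pow_le_self (Nat.succ_ne_zero N)).trans (le_maximalIdeal hJ)
  have hd : ∀ L : Ideal (MvPowerSeries (Fin (e + 1)) F), g ∈ L →
      ¬ (k : WithBot ℕ∞) ≤ ringKrullDim (MvPowerSeries (Fin (e + 1)) F ⧸ (L ⊔ J')) := by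
    intro L hL hcon
    obtain ⟨P, hP1, hP2, hP3⟩ := dimGE_prime hcon
    obtain ⟨Q, hQ1, hQ2, hQ3⟩ := Ideal.exists_ideal_over_prime_of_isIntegral (S := B) P
      (I ^ (N + 1) ⊔ J ^ (N + 1)) (le_sup_right.trans hP2)
    rw [← hQ3, dim_comap] at hP3
    refine hk (dimGE_mono (sup_le (sup_le ?_ ?_) ?_) hP3)
    · have h1 : MvPowerSeries.X 0 ∈ P := hP1.mem_of_pow_mem _ (hP2 (Ideal.mem_sup_left hL))
      rw [← hQ3, Ideal.mem_comap, hX'] at h1
      exact (Ideal.span_singleton_le_iff_mem _).2 h1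
    · exact (Ideal.IsPrime.pow_le_iff (Nat.succ_ne_zero N)).1 (le_sup_left.trans hQ1)
    · exact (Ideal.IsPrime.pow_le_iff (Nat.succ_ne_zero N)).1 (le_sup_right.trans hQ1)
  have d0 : DepthGE (MvPowerSeries (Fin (e + 1)) F)
      (MvPowerSeries (Fin (e + 1)) F ⧸ (⊥ : Ideal (MvPowerSeries (Fin (e + 1)) F)))
      (k + 1 + 1) := by
    refine depth_mono ?_ (depth_bot_iff.2 depth_power)
    rw [Nat.card_eq_fintype_card, Fintype.card_fin]
    exact hke
  have d1 := depth_step bot_ne_top hgm d0 (fun a ha => by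
    rcases mul_eq_zero.1 (Ideal.mem_bot.1 ha) with h | h
    · exact absurd h (pow_ne_zero _ hX0)
    · exact Ideal.mem_bot.2 h)
  rw [bot_sup_eq] at d1
  obtain ⟨x, hxJ, hx⟩ := exists_nzd (J := J') d1 fun hcon =>
    hd _ (Ideal.mem_span_singleton_self g) (le_trans (by exact_mod_cast Nat.le_succ k) hcon)
  have d2 := depth_step (ne_top_of_le_ne_top (maximalIdeal.isMaximal _).ne_top
    ((Ideal.span_singleton_le_iff_mem _).2 hgm)) (hJm hxJ) d1 hx
  obtain ⟨y, hyJ, hy⟩ := exists_nzd (J := J') d2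
    (hd _ (Ideal.mem_sup_left (Ideal.mem_span_singleton_self g)))
  refine ⟨I ^ (N + 1), J ^ (N + 1), x, y, ?_, ?_, ?_, hxJ, hyJ, hx, hy⟩
  · rw [Ideal.radical_pow _ (Nat.succ_ne_zero N)]
    exact Ideal.le_radical
  · rw [Ideal.radical_pow _ (Nat.succ_ne_zero N)]
    exact Ideal.le_radical
  · rw [← mul_pow, map_pow, hX']
    exact (Ideal.pow_le_pow_right (Nat.le_succ N)).trans hN

end Vale.Agent.P022G.Conn
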