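import Vale.Agent.P022G.Conn.Dim

/-!
# Connectedness in dimension `k` of a closed set, cutting by equations, and linking
-/

universe u

open IsLocalRing Function

namespace Vale.Agent.P022G.Conn

open Vale.Agent.P022D.CA

/-- `V(I)` has dimension at least `k + 1` and cannot be disconnected by removing a closed set of
dimension less than `k` -/
def CD {R : Type u} [CommRing R] (I : Ideal R) (k : ℕ) : Prop :=
  ((k + 1 : ℕ) : WithBot ℕ∞) ≤ ringKrullDim (R ⧸ I) ∧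
    ∀ I1 I2 : Ideal R, I1 * I2 ≤ I.radical → I1 ≤ I.radical ∨ I2 ≤ I.radical ∨
      (k : WithBot ℕ∞) ≤ ringKrullDim (R ⧸ (I ⊔ I1 ⊔ I2))

/-- `R ⧸ I` has a coefficient field -/
def Coef {R : Type u} [CommRing R] [IsLocalRing R] (I : Ideal R) : Prop :=
  ∃ (F : Type u) (_ : Field F) (σ : F →+* R ⧸ I),
    ∀ r : R, ∃ c, ∃ a ∈ maximalIdeal R, σ c = Ideal.Quotient.mk I (r - a)

section basic

variable {R : Type u} [CommRing R]

theorem Coef.mono [IsLocalRing R] {I J : Ideal R} (h : Coef I) (hIJ : I ≤ J) : Coef J := by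
  obtain ⟨F, hF, σ, hσ⟩ := h
  refine ⟨F, hF, (Ideal.Quotient.factor hIJ).comp σ, fun r => ?_⟩
  obtain ⟨c, a, ha, hc⟩ := hσ r
  exact ⟨c, a, ha, by rw [RingHom.comp_apply, hc, Ideal.Quotient.factor_mk]⟩

theorem Coef.of_field [IsLocalRing R] {F : Type u} [Field F] (σ : F →+* R)
    (hσ : ∀ r, ∃ c, r - σ c ∈ maximalIdeal R) (I : Ideal R) : Coef I := by
  refine ⟨F, inferInstance, (Ideal.Quotient.mk I).comp σ, fun r => ?_⟩
  obtain ⟨c, hc⟩ := hσ r
  exact ⟨c, r - σ c, hc, by rw [sub_sub_cancel, RingHom.comp_apply]⟩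

/-- coefficients `O` with residue field `F`, the kernel of `O → F` dies in `R ⧸ I` -/
theorem Coef.of_base [IsLocalRing R] {O : Type*} {F : Type u} [CommRing O] [Field F]
    (ψ : O →+* F) (hψ : Surjective ψ) (σ : O →+* R)
    (hσ : ∀ r, ∃ c, r - σ c ∈ maximalIdeal R) {I : Ideal R} (hI : ∀ o, ψ o = 0 → σ o ∈ I) :
    Coef I := by
  refine ⟨F, inferInstance, ψ.liftOfSurjective hψ ⟨(Ideal.Quotient.mk I).comp σ, fun o ho =>
    Ideal.Quotient.eq_zero_iff_mem.2 (hI o ho)⟩, fun r => ?_⟩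
  obtain ⟨c, hc⟩ := hσ r
  refine ⟨ψ c, r - σ c, hc, ?_⟩
  rw [sub_sub_cancel]
  exact RingHom.liftOfRightInverse_comp_apply _ _ _ _ c

theorem dim_radical (I : Ideal R) {k : ℕ} (h : (k : WithBot ℕ∞) ≤ ringKrullDim (R ⧸ I)) :
    (k : WithBot ℕ∞) ≤ ringKrullDim (R ⧸ I.radical) := by
  obtain ⟨P, hP, h1, h2⟩ := dimGE_prime h
  exact dimGE_mono (hP.radical_le_iff.2 h1) h2

theorem dim_mono_nat {I : Ideal R} {k l : ℕ} (hl : l ≤ k)
    (h : (k : WithBot ℕ∞) ≤ ringKrullDim (R ⧸ I)) : (l : WithBot ℕ∞) ≤ ringKrullDim (R ⧸ I) :=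
  le_trans (by exact_mod_cast hl) h

theorem CD.prime {P : Ideal R} (hP : P.IsPrime) {k : ℕ}
    (h : ((k + 1 : ℕ) : WithBot ℕ∞) ≤ ringKrullDim (R ⧸ P)) : CD P k := by
  refine ⟨h, fun I1 I2 h12 => ?_⟩
  rw [hP.radical] at h12 ⊢
  rcases hP.mul_le.1 h12 with h | h
  · exact Or.inl h
  · exact Or.inr (Or.inl h)

theorem CD.mono {I : Ideal R} {k l : ℕ} (h : CD I k) (hl : l ≤ k) : CD I l :=
  ⟨dim_mono_nat (Nat.succ_le_succ hl) h.1, fun I1 I2 h12 =>
    (h.2 I1 I2 h12).imp_right fun h1 => h1.imp_right (dim_mono_nat hl)⟩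

/-- only the radical matters -/
theorem CD.congr {I J : Ideal R} {k : ℕ} (h : CD I k) (h1 : I ≤ J.radical) (h2 : J ≤ I.radical) :
    CD J k := by
  have he : J.radical = I.radical :=
    le_antisymm (Ideal.radical_le_radical_iff.2 h2) (Ideal.radical_le_radical_iff.2 h1)
  refine ⟨dimGE_mono h2 (dim_radical I h.1), fun I1 I2 h12 => ?_⟩
  rw [he] at h12 ⊢
  refine (h.2 I1 I2 h12).imp_right fun h3 => h3.imp_right fun h4 => ?_
  refine dimGE_mono ?_ (dim_radical _ h4)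
  exact sup_le (sup_le (h2.trans (Ideal.radical_mono (le_sup_left.trans le_sup_left)))
    ((le_sup_right.trans le_sup_left).trans Ideal.le_radical))
    (le_sup_right.trans Ideal.le_radical)

/-- two classes of minimal primes meet in dimension at least `k` -/
theorem CD.meet [IsNoetherianRing R] {I : Ideal R} {k : ℕ} (h : CD I k) (Φ : Ideal R → Prop)
    {P1 P2 : Ideal R} (h1 : P1 ∈ I.minimalPrimes) (hΦ1 : Φ P1) (h2 : P2 ∈ I.minimalPrimes)
    (hΦ2 : ¬ Φ P2) :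
    ∃ Q1 ∈ I.minimalPrimes, ∃ Q2 ∈ I.minimalPrimes, Φ Q1 ∧ ¬ Φ Q2 ∧
      (k : WithBot ℕ∞) ≤ ringKrullDim (R ⧸ (Q1 ⊔ Q2)) := by
  obtain ⟨T, hT, hp⟩ : ∃ T : (Ideal R → Prop) → Ideal R,
      (∀ Ψ, ∀ P ∈ I.minimalPrimes, Ψ P → T Ψ ≤ P) ∧ ∀ (Ψ : Ideal R → Prop) (Q : Ideal R),
        Q.IsPrime → T Ψ ≤ Q → ∃ P ∈ I.minimalPrimes, Ψ P ∧ P ≤ Q := by
    classical
    let s := (Ideal.finite_minimalPrimes_of_isNoetherianRing R I).toFinset
    have hs : ∀ P, P ∈ s ↔ P ∈ I.minimalPrimes := fun P => Set.Finite.mem_toFinset _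
    refine ⟨fun Ψ => (s.filter Ψ).inf id, fun Ψ P hP hΨ =>
      Finset.inf_le (f := id) (Finset.mem_filter.2 ⟨(hs P).2 hP, hΨ⟩), fun Ψ Q hQ hle => ?_⟩
    obtain ⟨P, hP, hPQ⟩ := hQ.inf_le'.1 hle
    rw [Finset.mem_filter] at hP
    exact ⟨P, (hs P).1 hP.1, hP.2, hPQ⟩
  have hmul : T Φ * T (fun P => ¬ Φ P) ≤ I.radical := by
    rw [← Ideal.sInf_minimalPrimes]
    refine le_sInf fun P hP => ?_
    by_cases hΦ : Φ P
    · exact Ideal.mul_le_inf.trans (inf_le_left.trans (hT _ P hP hΦ))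
    · exact Ideal.mul_le_inf.trans (inf_le_right.trans (hT _ P hP hΦ))
  rcases h.2 _ _ hmul with h3 | h3 | h3
  · obtain ⟨P, hP, hΦ, hle⟩ := hp _ P2 h2.1.1 (h3.trans (h2.1.1.radical_le_iff.2 h2.1.2))
    have he : P = P2 := le_antisymm hle (h2.2 hP.1 hle)
    subst he
    exact absurd hΦ hΦ2
  · obtain ⟨P, hP, hΦ, hle⟩ := hp _ P1 h1.1.1 (h3.trans (h1.1.1.radical_le_iff.2 h1.1.2))
    have he : P = P1 := le_antisymm hle (h1.2 hP.1 hle)
    subst he
    exact absurd hΦ1 hΦ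
  · obtain ⟨Q, hQ, hle, hd⟩ := dimGE_prime h3
    obtain ⟨Q1, hQ1, hΦ, hle1⟩ := hp _ Q hQ ((le_sup_right.trans le_sup_left).trans hle)
    obtain ⟨Q2, hQ2, hΦ', hle2⟩ := hp _ Q hQ (le_sup_right.trans hle)
    exact ⟨Q1, hQ1, Q2, hQ2, hΦ, hΦ', dimGE_mono (sup_le hle1 hle2) hd⟩

/-- every component has dimension at least `k + 1` -/
theorem CD.min_dim [IsNoetherianRing R] {I : Ideal R} {k : ℕ} (h : CD I k) {P : Ideal R}
    (hP : P ∈ I.minimalPrimes) : ((k + 1 : ℕ) : WithBot ℕ∞) ≤ ringKrullDim (R ⧸ P) := by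
  by_cases h1 : ∃ P2 ∈ I.minimalPrimes, ¬ P2 = P
  · obtain ⟨P2, h2, hne⟩ := h1
    obtain ⟨Q1, -, Q2, hQ2, rfl, hne2, hd⟩ := h.meet (fun Q => Q = P) hP rfl h2 hne
    refine dimGE_succ hP.1.1 (lt_of_le_of_ne le_sup_left fun he => hne2 ?_) hd
    have h3 : Q2 ≤ Q1 := he ▸ le_sup_right
    exact le_antisymm h3 (hP.2 hQ2.1 h3)
  · push Not at h1
    obtain ⟨Q, hQ, hle, hd⟩ := dimGE_prime h.1
    obtain ⟨P2, h2, h3⟩ := Ideal.exists_minimalPrimes_le hle
    exact dimGE_mono (h1 P2 h2 ▸ h3) hd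

/-- a property of components which passes through primes of dimension at least `k` -/
theorem CD.induct [IsNoetherianRing R] {I : Ideal R} {k : ℕ} (h : CD I k) (Φ : Ideal R → Prop)
    (step : ∀ E1 ∈ I.minimalPrimes, ∀ E2 ∈ I.minimalPrimes, ∀ p : Ideal R, p.IsPrime → E1 ≤ p →
      E2 ≤ p → (k : WithBot ℕ∞) ≤ ringKrullDim (R ⧸ p) → Φ E1 → Φ E2)
    {P0 : Ideal R} (h0 : P0 ∈ I.minimalPrimes) (hΦ : Φ P0) : ∀ P ∈ I.minimalPrimes, Φ P := by
  intro P hP
  by_contra hn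
  obtain ⟨Q1, h1, Q2, h2, hΦ1, hΦ2, hd⟩ := h.meet Φ h0 hΦ hP hn
  obtain ⟨p, hp, hle, hd'⟩ := dimGE_prime hd
  exact hΦ2 (step Q1 h1 Q2 h2 p hp (le_sup_left.trans hle) (le_sup_right.trans hle) hd' hΦ1)

/-- a prime of dimension at least `k` lies in a prime of dimension exactly `k` -/
theorem exists_dim_eq [IsNoetherianRing R] {p : Ideal R} {k : ℕ}
    (hd : (k : WithBot ℕ∞) ≤ ringKrullDim (R ⧸ p)) :
    ∃ q : Ideal R, q.IsPrime ∧ p ≤ q ∧ ringKrullDim (R ⧸ q) = k := by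
  obtain ⟨q, hq, hmax⟩ := set_has_maximal_iff_noetherian.2 (inferInstance : IsNoetherian R R)
    {q : Ideal R | q.IsPrime ∧ p ≤ q ∧ (k : WithBot ℕ∞) ≤ ringKrullDim (R ⧸ q)} (dimGE_prime hd)
  refine ⟨q, hq.1, hq.2.1, le_antisymm (dim_le_of_not fun hcon => ?_) hq.2.2⟩
  rw [ringKrullDim_quotient, Order.le_krullDim_iff] at hcon
  obtain ⟨l, hl⟩ := hcon
  have hl' : l.length = k + 1 := by exact_mod_cast hl
  let i1 : Fin (l.length + 1) := ⟨1, by omega⟩
  have h01 : l.head < l i1 := l.strictMono (show (0 : Fin (l.length + 1)) < i1 from Nat.zero_lt_one)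
  have h0 : q ≤ l.head.1.asIdeal := l.head.2
  have h1 : q < (l i1).1.asIdeal := lt_of_le_of_lt h0 h01
  refine hmax (l i1).1.asIdeal ⟨(l i1).1.2, hq.2.1.trans h1.le, ?_⟩ h1
  rw [ringKrullDim_quotient, Order.le_krullDim_iff]
  refine ⟨⟨k, fun i => ⟨(l ⟨i + 1, by omega⟩).1, ?_⟩, fun i => ?_⟩, rfl⟩
  · have h2 : l i1 ≤ l ⟨i + 1, by omega⟩ := l.monotone (Fin.mk_le_mk.2 (by omega))
    exact h2
  · exact l.strictMono (Fin.mk_lt_mk.2 (by simp))

/-- the same through primes of dimension exactly `k` -/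
theorem CD.induct_eq [IsNoetherianRing R] {I : Ideal R} {k : ℕ} (h : CD I k)
    (Φ : Ideal R → Prop)
    (step : ∀ E1 ∈ I.minimalPrimes, ∀ E2 ∈ I.minimalPrimes, ∀ p : Ideal R, p.IsPrime → E1 ≤ p →
      E2 ≤ p → ringKrullDim (R ⧸ p) = k → Φ E1 → Φ E2)
    {P0 : Ideal R} (h0 : P0 ∈ I.minimalPrimes) (hΦ : Φ P0) : ∀ P ∈ I.minimalPrimes, Φ P := by
  refine h.induct Φ (fun E1 h1 E2 h2 p _ l1 l2 hd => ?_) h0 hΦ
  obtain ⟨q, hq, hle, he⟩ := exists_dim_eq hd
  exact step E1 h1 E2 h2 q hq (l1.trans hle) (l2.trans hle) he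

/-- passage to the image under a ring map -/
theorem CD.comap {A : Type u} [CommRing A] (φ : A →+* R) {I : Ideal R} {k l : ℕ} (h : CD I k)
    (h1 : ((l + 1 : ℕ) : WithBot ℕ∞) ≤ ringKrullDim (A ⧸ I.comap φ))
    (h2 : ∀ Q : Ideal R, Q.IsPrime → I ≤ Q → (k : WithBot ℕ∞) ≤ ringKrullDim (R ⧸ Q) →
      (l : WithBot ℕ∞) ≤ ringKrullDim (A ⧸ Q.comap φ)) : CD (I.comap φ) l := by
  refine ⟨h1, fun I1 I2 h12 => ?_⟩
  rw [← Ideal.comap_radical] at h12 ⊢
  rw [← Ideal.map_le_iff_le_comap, Ideal.map_mul] at h12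
  rcases h.2 _ _ h12 with h3 | h3 | h3
  · exact Or.inl (Ideal.map_le_iff_le_comap.1 h3)
  · exact Or.inr (Or.inl (Ideal.map_le_iff_le_comap.1 h3))
  · obtain ⟨Q, hQ, hle, hd⟩ := dimGE_prime h3
    refine Or.inr (Or.inr (dimGE_mono ?_ (h2 Q hQ ((le_sup_left.trans le_sup_left).trans hle) hd)))
    exact sup_le (sup_le (Ideal.comap_mono ((le_sup_left.trans le_sup_left).trans hle))
      (Ideal.map_le_iff_le_comap.1 ((le_sup_right.trans le_sup_left).trans hle)))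
      (Ideal.map_le_iff_le_comap.1 (le_sup_right.trans hle))

theorem dim_qq (P K : Ideal R) :
    ringKrullDim ((R ⧸ P) ⧸ K.map (Ideal.Quotient.mk P)) = ringKrullDim (R ⧸ (P ⊔ K)) :=
  ringKrullDim_eq_of_ringEquiv (DoubleQuot.quotQuotEquivQuotSup P K)

end basic

section cut

variable {R : Type u} [CommRing R] [IsLocalRing R] [IsNoetherianRing R]

theorem complete_quot [IsAdicComplete (maximalIdeal R) R] (P : Ideal R) [IsLocalRing (R ⧸ P)] :
    IsAdicComplete (maximalIdeal (R ⧸ P)) (R ⧸ P) := by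
  have h := complete_map (L := R ⧸ P) (maximalIdeal R)
  rwa [show (maximalIdeal R).map (algebraMap R (R ⧸ P)) = maximalIdeal (R ⧸ P) from
    map_maximalIdeal_of_surjective _ Ideal.Quotient.mk_surjective] at h

/-- the dimension form at a prime of a complete local ring -/
theorem dimform_prime [IsAdicComplete (maximalIdeal R) R] {P : Ideal R} (hP : P.IsPrime)
    (hc : Coef P) {f : R} (hf : f ∈ maximalIdeal R) {I J : Ideal R}
    (hIJ : I * J ≤ (P ⊔ Ideal.span {f}).radical) {k : ℕ}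
    (hB : ((k + 2 : ℕ) : WithBot ℕ∞) ≤ ringKrullDim (R ⧸ P))
    (hk : ¬ (k : WithBot ℕ∞) ≤ ringKrullDim (R ⧸ (P ⊔ Ideal.span {f} ⊔ I ⊔ J))) :
    I ≤ (P ⊔ Ideal.span {f}).radical ∨ J ≤ (P ⊔ Ideal.span {f}).radical := by
  have hloc : IsLocalRing (R ⧸ P) :=
    .of_surjective' (Ideal.Quotient.mk P) Ideal.Quotient.mk_surjective
  have := complete_quot P
  obtain ⟨F, hF, σ, hσ⟩ := hc
  have hm : (maximalIdeal R).map (Ideal.Quotient.mk P) = maximalIdeal (R ⧸ P) :=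
    map_maximalIdeal_of_surjective _ Ideal.Quotient.mk_surjective
  have hsp : Ideal.span {Ideal.Quotient.mk P f} = (Ideal.span {f}).map (Ideal.Quotient.mk P) := by
    rw [Ideal.map_span, Set.image_singleton]
  have hrad : (Ideal.span {Ideal.Quotient.mk P f}).radical.comap (Ideal.Quotient.mk P) =
      (P ⊔ Ideal.span {f}).radical := by
    rw [Ideal.comap_radical, hsp, Ideal.comap_map_of_surjective _ Ideal.Quotient.mk_surjective,
      ← RingHom.ker_eq_comap_bot, Ideal.mk_ker, sup_comm]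
  have h := dimform σ (fun b => ?_) (f := Ideal.Quotient.mk P f)
    (hm ▸ Ideal.mem_map_of_mem _ hf) (I := I.map (Ideal.Quotient.mk P))
    (J := J.map (Ideal.Quotient.mk P)) ?_ hB ?_
  · rwa [Ideal.map_le_iff_le_comap, Ideal.map_le_iff_le_comap, hrad] at h
  · obtain ⟨r, rfl⟩ := Ideal.Quotient.mk_surjective b
    obtain ⟨c, a, ha, hc⟩ := hσ r
    refine ⟨c, ?_⟩
    rw [hc, ← map_sub, sub_sub_cancel, ← hm]
    exact Ideal.mem_map_of_mem _ ha
  · rwa [← Ideal.map_mul, Ideal.map_le_iff_le_comap, hrad]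
  · rwa [hsp, ← Ideal.map_sup, ← Ideal.map_sup, dim_qq, ← sup_assoc, ← sup_assoc]

/-- CONN: cutting by one equation lowers the connectedness dimension by at most one -/
theorem CD.cut [IsAdicComplete (maximalIdeal R) R] {I : Ideal R} (hc : Coef I) {k : ℕ}
    (h : CD I (k + 1)) {f : R} (hf : f ∈ maximalIdeal R) : CD (I ⊔ Ideal.span {f}) k := by
  refine ⟨dimGE_sup hf h.1, fun I1 I2 h12 => ?_⟩
  by_contra hcon
  push Not at hcon
  obtain ⟨n1, n2, n3⟩ := hcon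
  have n3' := not_le.2 n3
  have key : ∀ P ∈ I.minimalPrimes, I1 ≤ (P ⊔ Ideal.span {f}).radical ∨
      I2 ≤ (P ⊔ Ideal.span {f}).radical := fun P hP =>
    dimform_prime hP.1.1 (hc.mono hP.1.2) hf
      (h12.trans (Ideal.radical_mono (sup_le_sup_right hP.1.2 _))) (h.min_dim hP)
      fun hd => n3' (dimGE_mono (sup_le_sup_right (sup_le_sup_right
        (sup_le_sup_right hP.1.2 _) _) _) hd)
  have all : ∀ K : Ideal R, (∀ P ∈ I.minimalPrimes, K ≤ (P ⊔ Ideal.span {f}).radical) →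
      K ≤ (I ⊔ Ideal.span {f}).radical := by
    intro K hK
    rw [Ideal.radical_eq_sInf]
    refine le_sInf fun Q hQ => ?_
    have := hQ.2
    obtain ⟨P, hP, hle⟩ := Ideal.exists_minimalPrimes_le (le_sup_left.trans hQ.1)
    exact (hK P hP).trans (hQ.2.radical_le_iff.2 (sup_le hle (le_sup_right.trans hQ.1)))
  have e2 : ∃ P ∈ I.minimalPrimes, ¬ I1 ≤ (P ⊔ Ideal.span {f}).radical := by
    by_contra h1
    push Not at h1
    exact n1 (all _ h1)
  have e1 : ∃ P ∈ I.minimalPrimes, I1 ≤ (P ⊔ Ideal.span {f}).radical := by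
    by_contra h1
    push Not at h1
    exact n2 (all _ fun P hP => (key P hP).resolve_left (h1 P hP))
  obtain ⟨P1, h1, hΦ1⟩ := e1
  obtain ⟨P2, h2, hΦ2⟩ := e2
  obtain ⟨Q1, hQ1, Q2, hQ2, hΦ, hΦ', hd⟩ :=
    h.meet (fun P => I1 ≤ (P ⊔ Ideal.span {f}).radical) h1 hΦ1 h2 hΦ2
  refine n3' (dimGE_mono ?_ (dim_radical _ (dimGE_sup hf hd)))
  refine sup_le (sup_le (le_trans ?_ Ideal.le_radical) (hΦ.trans (Ideal.radical_mono ?_)))
    (((key Q2 hQ2).resolve_left hΦ').trans (Ideal.radical_mono ?_))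
  · exact sup_le_sup_right (hQ1.1.2.trans le_sup_left) _
  · exact sup_le_sup_right le_sup_left _
  · exact sup_le_sup_right le_sup_right _

/-- cutting by a list of equations -/
theorem CD.cut_list [IsAdicComplete (maximalIdeal R) R] (fs : List R) :
    ∀ {I : Ideal R} {k : ℕ}, Coef I → CD I (k + fs.length) → (∀ f ∈ fs, f ∈ maximalIdeal R) →
      CD (I ⊔ Ideal.ofList fs) k := by
  induction fs with
  | nil =>
    intro I k _ h _
    simpa using h
  | cons x fs ih =>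
    intro I k hc h hm
    have h1 := ih (I := I ⊔ Ideal.span {x}) (k := k) (hc.mono le_sup_left)
      (CD.cut hc h (hm x List.mem_cons_self)) (fun f hf => hm f (List.mem_cons_of_mem _ hf))
    rwa [Ideal.ofList_cons, ← sup_assoc]

/-- cutting by a finite family of equations -/
theorem CD.cut_fam [IsAdicComplete (maximalIdeal R) R] {ι : Type*} [Finite ι] (g : ι → R)
    {I : Ideal R} {k : ℕ} (hc : Coef I) (h : CD I (k + Nat.card ι))
    (hm : ∀ i, g i ∈ maximalIdeal R) : CD (I ⊔ Ideal.span (Set.range g)) k := by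
  have e := Finite.equivFin ι
  have h1 := CD.cut_list (List.ofFn (g ∘ e.symm)) (k := k) hc (by rwa [List.length_ofFn])
    (fun r hr => by
      obtain ⟨i, rfl⟩ := (List.mem_ofFn' _ _).1 hr
      exact hm _)
  rwa [ofList_ofFn, e.symm.surjective.range_comp] at h1

end cut

/-- the start: a power series ring over a field -/
theorem CD.power {F : Type u} [Field F] {σ : Type} [Finite σ] {k : ℕ} (hk : k + 1 ≤ Nat.card σ) :
    CD (⊥ : Ideal (MvPowerSeries σ F)) k := by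
  have : IsDomain (MvPowerSeries σ F) := NoZeroDivisors.to_isDomain _
  refine CD.prime Ideal.isPrime_bot ?_
  rw [dim_quot_bot, Vale.Agent.P177.mvPowerSeries_ringKrullDim]
  exact_mod_cast hk

end Vale.Agent.P022G.Conn
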